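import Vale.Agent.P283R.Ty.A
import Vale.Agent.P283R.D.Sem
import Vale.Agent.P287D.Cb.Row
import Vale.Agent.P287D.Pb.Up

/-!
# P283R, block TAY: places above and below along local coordinates
-/

open Set MvPolynomial
open MvPowerSeries (truncTotal)
open Vale.Agent.P287D Vale.Agent.P287D.Pb Vale.Agent.P297Z

noncomputable section

namespace Vale.Agent.P283R.Ty

theorem div_pow_mem {R F σ : Type} [CommRing R] [Field F] (ψ : R →+* F) (V : Subring F)
    (h : ∀ a, ψ a ∈ V) {x : σ → R} {t : F} (ht : ∀ j, ψ (x j) / t ∈ V) (n : ℕ) {a : R}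
    (ha : a ∈ Ideal.span (range x) ^ n) : ψ a / t ^ n ∈ V := by
  induction n generalizing a with
  | zero => simpa using h a
  | succ n ih =>
    rw [pow_succ] at ha
    refine Submodule.mul_induction_on ha (fun u hu v hv => ?_) fun u v hu hv => by
      rw [map_add, add_div]; exact add_mem hu hv
    rw [map_mul, pow_succ, mul_div_mul_comm]
    refine mul_mem (ih hu) ?_
    clear ha
    induction hv using Submodule.span_induction with
    | mem v hv => obtain ⟨j, rfl⟩ := hv; exact ht j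
    | zero => simp
    | add u v _ _ hu hv => rw [map_add, add_div]; exact add_mem hu hv
    | smul c u _ hu => rw [smul_eq_mul, map_mul, mul_div_assoc]; exact mul_mem (h c) hu

variable {K F O : Type} [Field K] [Algebra ℂ K] [Field F] [Algebra ℂ F] [CommRing O] [Algebra ℂ O]
  {N : ℕ}

theorem aeval_ring (P : Pl K) {σ : Type} {z : σ → K} (h : ∀ j, z j ∈ P.ring)
    (p : MvPolynomial σ ℂ) : aeval z p ∈ P.ring := by
  induction p using MvPolynomial.induction_on with
  | C a => rw [aeval_C]; exact P.con a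
  | add p q hp hq => rw [map_add]; exact add_mem hp hq
  | mul_X p j hp => rw [map_mul, aeval_X]; exact mul_mem hp (h j)

theorem mem_of_pos (P : Pl K) {a : K} {m : ℤ} (h : m ≤ P.ord a) : a / P.t ^ m ∈ P.ring := by
  by_cases a0 : a = 0
  · rw [a0, zero_div]; exact zero_mem _
  have := zpow_ne_zero m (t_ne P)
  rw [← Pl.ord_nonneg_iff _ (div_ne_zero a0 this), Pl.ord_div _ a0 this, Pl.ord_zpow, ord_t]
  omega

omit [Algebra ℂ O] in
/-- the order of a member of a power of the ideal of the coordinates -/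
theorem le_ord (P : Pl F) (ψ : O →+* F) (h : ∀ a, ψ a ∈ P.ring) {σ : Type} {x : σ → O} {m : ℤ}
    (hx : ∀ j, ψ (x j) = 0 ∨ m ≤ P.ord (ψ (x j))) {n : ℕ} {a : O}
    (ha : a ∈ Ideal.span (range x) ^ n) (a0 : ψ a ≠ 0) : n * m ≤ P.ord (ψ a) := by
  have h1 := div_pow_mem ψ P.ring.toSubring h (t := P.t ^ m) (fun j => (hx j).elim
    (fun e => by rw [e, zero_div]; exact zero_mem _) (mem_of_pos P)) n ha
  have h2 := pow_ne_zero n (zpow_ne_zero m (t_ne P))
  have h3 := Pl.ord_nonneg_of_mem P.toPlace h1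
  rw [Pl.ord_div _ a0 h2, Pl.ord_pow, Pl.ord_zpow, ord_t] at h3
  linarith

/-- an etale chart: `O` is a subring of `F` with the local coordinates `x`, and `K` is the field
of rational functions in the coordinates -/
structure Ch (ι : O →ₐ[ℂ] F) (x : Fin N → O) (φ : K →ₐ[ℂ] F) (z : Fin N → K) : Prop where
  crd : Crd ℂ x
  inj : Function.Injective ι
  ff : FF F N
  rat : D.Rat z
  eq : ∀ j, φ (z j) = ι (x j)

variable {ι : O →ₐ[ℂ] F} {x : Fin N → O} {φ : K →ₐ[ℂ] F} {z : Fin N → K}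

namespace Ch

theorem aeval_eq (h : Ch ι x φ z) (p : MvPolynomial (Fin N) ℂ) :
    ι (aeval x p) = φ (aeval z p) := by
  rw [comp_aeval_apply, comp_aeval_apply]
  exact congrArg (fun y => aeval y p) (funext fun j => (h.eq j).symm)

theorem frac (h : Ch ι x φ z) (r : K) :
    ∃ p q : MvPolynomial (Fin N) ℂ, aeval z q ≠ 0 ∧ r = aeval z p / aeval z q := by
  obtain ⟨p, q, e⟩ := (IntermediateField.mem_adjoin_range_iff ℂ z r).1 (h.rat.gen r)
  by_cases q0 : aeval z q = 0
  · exact ⟨0, 1, by simp, by simp [e, q0]⟩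
  · exact ⟨p, q, q0, e⟩

/-- the ring generated by `O` and the ring of `Q` lies in this one -/
def big (h : Ch ι x φ z) (Q : Pl K) : Subring F where
  carrier := {y | ∃ (b : MvPolynomial (Fin N) ℂ) (a : O), aeval z b ≠ 0 ∧
    ι a = y * φ (aeval z b) ∧ ∀ n, ∃ p : MvPolynomial (Fin N) ℂ,
      a - aeval x p ∈ Ideal.span (range x) ^ n ∧ aeval z p / aeval z b ∈ Q.ring}
  zero_mem' := ⟨1, 0, by simp, by simp, fun _ => ⟨0, by simp, by simp⟩⟩
  one_mem' := ⟨1, 1, by simp, by simp, fun _ => ⟨1, by simp, by simp⟩⟩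
  neg_mem' := by
    rintro y ⟨b, a, b0, e, k⟩
    refine ⟨b, -a, b0, by rw [map_neg, e, neg_mul], fun n => ?_⟩
    obtain ⟨p, k1, k2⟩ := k n
    exact ⟨-p, by convert neg_mem k1 using 1; rw [map_neg]; ring,
      by rw [map_neg, neg_div]; exact neg_mem k2⟩
  mul_mem' := by
    rintro y y' ⟨b, a, b0, e, k⟩ ⟨b', a', b0', e', k'⟩
    refine ⟨b * b', a * a', by rw [map_mul]; exact mul_ne_zero b0 b0',
      by rw [map_mul, map_mul, map_mul, e, e']; ring, fun n => ?_⟩
    obtain ⟨p, k1, k2⟩ := k n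
    obtain ⟨p', k1', k2'⟩ := k' n
    refine ⟨p * p', ?_, by rw [map_mul, map_mul, mul_div_mul_comm]; exact mul_mem k2 k2'⟩
    convert add_mem (Ideal.mul_mem_left _ a k1') (Ideal.mul_mem_right (aeval x p') _ k1) using 1
    rw [map_mul]; ring
  add_mem' := by
    rintro y y' ⟨b, a, b0, e, k⟩ ⟨b', a', b0', e', k'⟩
    refine ⟨b * b', a * aeval x b' + aeval x b * a', by rw [map_mul]; exact mul_ne_zero b0 b0',
      by simp only [map_mul, map_add, h.aeval_eq, e, e']; ring, fun n => ?_⟩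
    obtain ⟨p, k1, k2⟩ := k n
    obtain ⟨p', k1', k2'⟩ := k' n
    refine ⟨p * b' + b * p', ?_, ?_⟩
    · convert add_mem (Ideal.mul_mem_right (aeval x b') _ k1)
        (Ideal.mul_mem_left _ (aeval x b) k1') using 1
      simp only [map_mul, map_add]; ring
    · simp only [map_mul, map_add]
      rw [← div_add_div _ _ b0 b0']
      exact add_mem k2 k2'

theorem inv_not_mem (h : Ch ι x φ z) {Q : Pl K} (hQ : ∀ j, 0 < Q.ord (z j)) :
    (φ Q.t)⁻¹ ∉ h.big Q := by
  rintro ⟨b, a, b0, e, k⟩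
  obtain ⟨c, d, d0, et⟩ := h.frac Q.t
  have t0 := t_ne Q
  have hz : ∀ j, z j ∈ Q.ring := fun j =>
    (Pl.ord_nonneg_iff _ (h.rat.ind.ne_zero j)).1 (hQ j).le
  have e1 : a * aeval x c = aeval x (b * d) := h.inj (by
    rw [map_mul, e, h.aeval_eq, h.aeval_eq, (div_eq_iff d0).1 et.symm, map_mul, map_mul, map_mul]
    have := (map_ne_zero φ).2 t0
    field_simp)
  have bd : aeval z (b * d) ≠ 0 := by rw [map_mul]; exact mul_ne_zero b0 d0
  obtain ⟨p, k1, k2⟩ := k ((Q.ord (aeval z (b * d))).toNat + 1)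
  have k3 := Ideal.mul_mem_right (aeval x c) _ k1
  rw [sub_mul, e1, ← map_mul, ← map_sub] at k3
  have k4 : aeval z (b * d - p * c) / aeval z (b * d) / Q.t ∈ Q.ring := by
    by_cases e0 : aeval z (b * d - p * c) = 0
    · rw [e0, zero_div, zero_div]; exact zero_mem _
    have k5 := le_ord Q (aeval z : MvPolynomial (Fin N) ℂ →ₐ[ℂ] K) (aeval_ring Q hz) (x := X)
      (m := 1) (fun j => Or.inr (by simpa using Int.add_one_le_of_lt (hQ j))) (h.crd.ind _ _ k3) e0
    have k6 := mem_of_pos Q (a := aeval z (b * d - p * c) / aeval z (b * d)) (m := 1) (by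
      rw [Pl.ord_div _ e0 bd]
      simp only [RingHom.coe_coe] at k5
      omega)
    rwa [zpow_one] at k6
  have k7 : Q.t⁻¹ ∈ Q.ring := by
    convert add_mem k4 k2 using 1
    rw [map_sub, map_mul, map_mul, (div_eq_iff d0).1 et.symm]
    field_simp
    ring
  have := Pl.ord_nonneg_of_mem Q.toPlace k7
  rw [Pl.ord_inv, ord_t] at this
  omega

/-- **UP**: a place centred at the origin has a place above which is centred at the point -/
theorem up (h : Ch ι x φ z) {Q : Pl K} (hQ : ∀ j, 0 < Q.ord (z j)) :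
    ∃ P : Pl F, Lies (φ : K →+* F) P Q ∧ ∀ a, ι a ∈ P.ring := by
  have hz : ∀ j, z j ∈ Q.ring := fun j =>
    (Pl.ord_nonneg_iff _ (h.rat.ind.ne_zero j)).1 (hQ j).le
  have h1 : ∀ a, ι a ∈ h.big Q := fun a => ⟨1, a, by simp, by simp, fun n =>
    (h.crd.approx n a).imp fun p hp => ⟨hp, by simpa using aeval_ring Q hz p⟩⟩
  have h2 : ∀ r ∈ Q.ring, φ r ∈ h.big Q := fun r hr => by
    obtain ⟨p, q, q0, e⟩ := h.frac r
    exact ⟨q, aeval x p, q0, by rw [h.aeval_eq, ← map_mul, e, div_mul_cancel₀ _ q0],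
      fun n => ⟨p, by simp, e ▸ hr⟩⟩
  have t0 := (map_ne_zero φ).2 (t_ne Q)
  have tm : Q.t ∈ Q.ring := (Pl.ord_nonneg_iff _ (t_ne Q)).1 (by rw [ord_t]; omega)
  obtain ⟨V, v1, v2⟩ := Ideal.image_subset_nonunits_valuationSubring
    (Ideal.span {(⟨_, h2 _ tm⟩ : h.big Q)}) fun e => by
      obtain ⟨u, hu⟩ := (Ideal.span_singleton_eq_top.1 e).exists_left_inv
      exact h.inv_not_mem hQ (eq_inv_of_mul_eq_one_left (congrArg Subtype.val hu) ▸ u.2)
  have v3 : (φ Q.t)⁻¹ ∉ V :=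
    (V.inv_mem_nonunits_iff.1 (by
      rw [inv_inv]; exact v2 ⟨_, Ideal.subset_span rfl, rfl⟩)).resolve_left (inv_ne_zero t0)
  let _ := (φ : K →+* F).toAlgebra
  have : IsScalarTower ℂ K F := .of_algebraMap_eq fun c => (φ.commutes c).symm
  have := fin_of_ff h.rat.ff h.ff
  have v4 : Q.ring = V.comap (algebraMap K F) :=
    Pl.ring_eq_of_le (fun r hr => v1 (h2 r hr)) fun e => v3 (by
      rw [← map_inv₀]
      exact show Q.t⁻¹ ∈ V.comap (algebraMap K F) from e ▸ ValuationSubring.mem_top _)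
  obtain ⟨P, hP⟩ := (fund0 (K' := F) Q).2.1 ⟨V, v4.symm⟩
  have : P.1.ring = V := congrArg P298.H416.Ovr.val hP
  exact ⟨P.1, P.2, fun a => this ▸ v1 (h1 a)⟩

/-- **DOWN** -/
theorem down (h : Ch ι x φ z) (P : Pl F) : ∃ Q, Lies (φ : K →+* F) P Q := by
  let _ := (φ : K →+* F).toAlgebra
  have : IsScalarTower ℂ K F := .of_algebraMap_eq fun c => (φ.commutes c).symm
  exact Pb.down h.rat.ff h.ff P

variable {P : Pl F} {Q : Pl K}

/-- the log discrepancies -/
theorem hur (h : Ch ι x φ z) (l : Lies (φ : K →+* F) P Q) :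
    kap (fun j => ι (x j)) P + 1 = P.ord (φ Q.t) * (kap z Q + 1) := by
  rw [← funext h.eq]
  exact Cb.hur h.rat.ff h.ff φ.commutes l h.rat.ind

theorem ord_aeval (h : Ch ι x φ z) (l : Lies (φ : K →+* F) P Q) (p : MvPolynomial (Fin N) ℂ) :
    P.ord (ι (aeval x p)) = P.ord (φ Q.t) * Q.ord (aeval z p) := by
  rw [h.aeval_eq]; exact l.ord _

theorem ord_x (h : Ch ι x φ z) (l : Lies (φ : K →+* F) P Q) (j : Fin N) :
    P.ord (ι (x j)) = P.ord (φ Q.t) * Q.ord (z j) := by
  rw [← h.eq]; exact l.ord _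

end Ch

omit [Algebra ℂ O] in
/-- an element and its approximation have the same order, if one of the orders is small -/
theorem ord_eq_of_sub (P : Pl F) (ψ : O →+* F) (h : ∀ a, ψ a ∈ P.ring) {σ : Type} {x : σ → O}
    {m : ℤ} (hx : ∀ j, ψ (x j) = 0 ∨ m ≤ P.ord (ψ (x j))) {n : ℕ} {a b : O}
    (ha : a - b ∈ Ideal.span (range x) ^ n) (b0 : ψ b ≠ 0) (hb : P.ord (ψ b) < n * m) :
    ψ a ≠ 0 ∧ P.ord (ψ a) = P.ord (ψ b) := by
  by_cases e : ψ (a - b) = 0
  · rw [map_sub, sub_eq_zero] at e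
    exact ⟨e ▸ b0, by rw [e]⟩
  have h1 := le_ord P ψ h hx ha e
  have h2 := Pl.ord_add_eq_of_lt P.toPlace b0 e (by omega)
  rw [map_sub, add_sub_cancel] at h2
  refine ⟨fun a0 => ?_, by simpa using h2⟩
  rw [map_sub, a0, zero_sub, Pl.ord_neg] at h1
  omega

end Vale.Agent.P283R.Ty
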