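import Vale.Agent.P283R.Ty.C
import Vale.Agent.P283R.Co.St

/-!
# P283R, row LT: from the affine space to a closed point of a smooth variety
-/

open Set MvPolynomial
open MvPowerSeries (truncTotal)
open Vale.Agent.P287D Vale.Agent.P287D.Pb Vale.Agent.P287D.Cb Vale.Agent.P297Z

noncomputable section

namespace Vale.Agent.P283R.Ty

open Co (K0 z0)

/-- the conclusion of the blocks CORE and D -/
def DD : Prop := ∀ (N Q n : ℕ) (M : AddSubgroup (Fin N → ℤ)) (b : Fin N → ℤ)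
  (f : MvPowerSeries (Fin N) ℂ), 0 < N → 0 < Q → 0 < n → Co.Out Q n M b f →
    ∃ (C : Finset (Fin N → ℕ)) (k : ℕ), Co.Chr Q n M b C ∧ ∀ g : MvPolynomial (Fin N) ℂ, g ≠ 0 →
      g - truncTotal k f ∈ idealOfVars (Fin N) ℂ ^ k → ∀ P : Pl (K0 N),
        (∀ j, 0 < P.ord (z0 N j)) → ∃ c ∈ C, (P.ord (aeval (z0 N) g) : ℝ) / Q +
          (∑ j, (c j : ℝ) * P.ord (z0 N j)) / n < Co.A0 (z0 N) P

variable {F : Type} [Field F] [Algebra ℂ F] {N : ℕ} {S : Subalgebra ℂ F} {p : Ideal S}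
  {x : Fin N → F} {A : Subgroup (F ≃ₐ[ℂ] F)}

/-- the exponents of the invariant monomials -/
def latt (A : Subgroup (F ≃ₐ[ℂ] F)) (x : Fin N → F) (h : ∀ j, x j ≠ 0) :
    AddSubgroup (Fin N → ℤ) where
  carrier := {m | Fix A (∏ j, x j ^ m j)}
  zero_mem' := fun σ _ => by simp
  add_mem' := fun {a b} ha hb σ hσ => by
    simp only [Pi.add_apply, zpow_add₀ (h _), Finset.prod_mul_distrib]
    rw [map_mul, ha σ hσ, hb σ hσ]
  neg_mem' := fun {a} ha σ hσ => by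
    simp only [Pi.neg_apply, zpow_neg, Finset.prod_inv_distrib]
    rw [map_inv₀, ha σ hσ]

theorem fi_latt [Finite A] (h : ∀ j, x j ≠ 0) (hx : ∀ j, Eig A (x j)) : Co.Fi (latt A x h) :=
  ⟨Nat.card A, Nat.card_pos, fun j => by
    change Fix A _
    rw [Finset.prod_eq_single j (fun i _ hi => by simp [hi]) (by simp), Pi.single_eq_same,
      zpow_natCast]
    exact eig_pow (hx j)⟩

theorem aeval_z0 (g : MvPolynomial (Fin N) ℂ) : aeval (z0 N) g = algebraMap _ (K0 N) g := by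
  have : (aeval (z0 N) : _ →ₐ[ℂ] K0 N) = IsScalarTower.toAlgHom ℂ _ _ :=
    algHom_ext fun j => by simp [z0]
  rw [this]; rfl

theorem rat_z0 : D.Rat (z0 N) where
  ind p q e := by
    rw [aeval_z0, aeval_z0] at e
    exact IsFractionRing.injective _ _ e
  gen r := by
    obtain ⟨a, b, -, rfl⟩ := IsFractionRing.div_surjective (A := MvPolynomial (Fin N) ℂ) r
    exact (IntermediateField.mem_adjoin_range_iff ℂ _ _).2 ⟨a, b, by rw [aeval_z0, aeval_z0]⟩

theorem exists_ch (h : P283R.Ch S p x) (c : Crd ℂ (xo h)) :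
    ∃ φ : K0 N →ₐ[ℂ] F, Ch (lo S p h.pri).val (xo h) φ (z0 N) := by
  have i : Function.Injective (aeval x : MvPolynomial (Fin N) ℂ →ₐ[ℂ] F) :=
    c.indep.map' (f := (lo S p h.pri).val) Subtype.val_injective
  exact ⟨IsFractionRing.liftAlgHom i, c, Subtype.val_injective, h.aff.ff, rat_z0, fun j => by
    simp [z0, xo]⟩

section

variable (h : P283R.Ch S p x) (c : Crd ℂ (xo h)) (hi : ∀ σ ∈ A, Inr S p σ)
  (hx : ∀ j, Eig A (x j))
include c

theorem x_ne (j : Fin N) : x j ≠ 0 := fun e => c.indep.ne_zero j (Subtype.ext e)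

theorem tay_ne {a : lo S p h.pri} (a0 : (a : F) ≠ 0) : c.tay a ≠ 0 :=
  haveI := noeth_lo h.pri h.aff.fg
  (c.tay_spec a).ne_zero c fun e => a0 (by rw [e]; rfl)

/-- a truncation which has the same order -/
theorem exists_trunc {P : Pl F} (hP : Cen S p P) {a : lo S p h.pri} (a0 : (a : F) ≠ 0) (k : ℕ) :
    ∃ k', k ≤ k' ∧ truncTotal k' (c.tay a) ≠ 0 ∧
      P.ord (aeval (xo h) (truncTotal k' (c.tay a)) : lo S p h.pri) = P.ord a := by
  have k1 := ord_eq_of_sub P ((lo S p h.pri).val : lo S p h.pri →+* F) (lo_ring h.pri hP)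
    (x := xo h) (m := 1) (fun j => cen_pos h hP j) (n := max k ((P.ord a).toNat + 1)) (b := a)
    (by rw [← neg_sub]; exact neg_mem (c.tay_spec a _)) a0 (by
      change P.ord (a : F) < _
      omega)
  exact ⟨_, le_max_left _ _, fun e => k1.1 (by rw [e, map_zero, map_zero]), k1.2⟩

include hi hx

theorem sig_mon {σ : F ≃ₐ[ℂ] F} (hσ : σ ∈ A) {a : lo S p h.pri} {e : ℂ} (he : σ a = e • (a : F))
    {d : Fin N →₀ ℕ} (hd : (c.tay a).coeff d ≠ 0) :
    σ (∏ j, x j ^ (d j : ℤ)) = e • ∏ j, x j ^ (d j : ℤ) := by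
  choose χ hχ using fun j => hx j σ hσ
  have k := (c.tay_spec a).supp c (act h.pri (hi σ hσ)) χ (fun j => Subtype.ext (hχ j))
    (Subtype.ext he) hd
  rw [Finsupp.prod_fintype _ _ fun _ => pow_zero _] at k
  simp only [← k, zpow_natCast, map_prod, map_pow, hχ, Algebra.smul_def, mul_pow,
    Finset.prod_mul_distrib]

theorem fix_div {a : lo S p h.pri} (a0 : (a : F) ≠ 0) (ha : Eig A (a : F)) {d : Fin N →₀ ℕ}
    (hd : (c.tay a).coeff d ≠ 0) : Fix A ((a : F) / ∏ j, x j ^ (d j : ℤ)) := fun σ hσ => by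
  obtain ⟨e, he⟩ := ha σ hσ
  have e0 : e ≠ 0 := fun k => (map_ne_zero σ).2 a0 (by rw [he, k, zero_smul])
  rw [map_div₀, sig_mon h c hi hx hσ he hd, he, Algebra.smul_def, Algebra.smul_def,
    mul_div_mul_left _ _ ((map_ne_zero _).2 e0)]

theorem cos_tay {a : lo S p h.pri} (a0 : (a : F) ≠ 0) (ha : Eig A (a : F)) {d : Fin N →₀ ℕ}
    (hd : (c.tay a).coeff d ≠ 0) :
    Co.Cos (latt A x (x_ne h c)) (fun j => d j) (c.tay a) := fun m hm σ hσ => by
  have k1 := fix_div h c hi hx a0 ha hd σ hσ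
  have k2 := fix_div h c hi hx a0 ha hm σ hσ
  have e : ∏ j, x j ^ ((m j : ℤ) - d j) =
      ((a : F) / ∏ j, x j ^ (d j : ℤ)) / ((a : F) / ∏ j, x j ^ (m j : ℤ)) := by
    simp only [zpow_sub₀ (x_ne h c _), Finset.prod_div_distrib]
    rw [div_div_div_cancel_left' _ _ a0]
  rw [e, map_div₀, k1, k2]

theorem dvd_ord {φ : K0 N →ₐ[ℂ] F} (ch : Ch (lo S p h.pri).val (xo h) φ (z0 N)) {P : Pl F}
    {R : Pl (K0 N)} (l : Lies (φ : K0 N →+* F) P R) (hP : Cen S p P) {r e : ℕ}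
    (hz : Co.Zv (latt A x (x_ne h c)) R r e) (he : 0 < e) {a : S} (a0 : (a : F) ≠ 0)
    (ha : Fix A a) : P.ord (φ R.t) * (r / Nat.gcd r e : ℕ) ∣ P.ord a := by
  obtain ⟨k, -, k0, k1⟩ := exists_trunc h c hP (a := ⟨a, le_lo h.pri a⟩) a0 0
  have k2 := hz 0 _ k0 fun m hm σ hσ => by
    rw [coeff_coe, MvPowerSeries.coeff_truncTotal_eq_ite] at hm
    simpa using sig_mon h c hi hx hσ (a := ⟨a, le_lo h.pri a⟩) (e := 1) (by simpa using ha σ hσ)
      (ite_ne_right_iff.1 hm).2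
  have k3 : P.ord (a : F) = P.ord (φ R.t) * _ := k1.symm.trans (ch.ord_aeval l _)
  rw [k3]
  refine mul_dvd_mul_left _ ?_
  have g0 := Nat.gcd_pos_of_pos_right r he
  simp only [Pi.zero_apply, zero_mul, Finset.sum_const_zero, sub_zero] at k2
  refine (Nat.isCoprime_iff_coprime.2 (Nat.coprime_div_gcd_div_gcd g0)).dvd_of_dvd_mul_left
    (Int.dvd_of_mul_dvd_mul_left (Int.natCast_ne_zero.2 g0.ne') ?_)
  rwa [← mul_assoc, ← Nat.cast_mul, ← Nat.cast_mul, Nat.mul_div_cancel' (Nat.gcd_dvd_left r e),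
    Nat.mul_div_cancel' (Nat.gcd_dvd_right r e)]

theorem hy_of [Finite A] (hA : Stab A S) {Q : ℕ} (hQ : 0 < Q) {ε : ℝ} (hε : 0 < ε)
    {f : lo S p h.pri} (f0 : (f : F) ≠ 0) (H : Hyp ε A S p x Q f) :
    Co.Hy Q ε (latt A x (x_ne h c)) (c.tay f) := by
  intro R r e k μ E hr he lw hz _
  obtain ⟨φ, ch⟩ := exists_ch h c
  have pos : ∀ j, 0 < R.ord (z0 N j) := fun j => by exact_mod_cast lw.pos.trans_le (lw.mu j)
  obtain ⟨P, l, hO⟩ := ch.up pos
  have e0 : 0 < P.ord (φ R.t) := l.e_pos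
  have ox : ∀ j, P.ord (x j) = P.ord (φ R.t) * R.ord (z0 N j) := ch.ord_x l
  have hP : Cen S p P := cen_of h hO fun j => ox j ▸ mul_pos e0 (pos j)
  have g0 := Nat.gcd_pos_of_pos_right r he
  have r0 : 0 < r / Nat.gcd r e := Nat.div_pos (Nat.gcd_le_left e hr) g0
  have c0 : (((P.ord (φ R.t)).toNat * (r / Nat.gcd r e) : ℕ) : ℤ) =
      P.ord (φ R.t) * (r / Nat.gcd r e : ℕ) := by rw [Nat.cast_mul, Int.toNat_of_nonneg e0.le]
  have H1 := H P hP ((P.ord (φ R.t)).toNat * (r / Nat.gcd r e)) (mul_pos (by omega) r0)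
    fun g g0 hg => by
      obtain ⟨a, b, a0, b0, ha, hb, rfl⟩ := fix_frac h.aff hA g0 hg
      rw [Pl.ord_div _ a0 b0, c0]
      exact dvd_sub (dvd_ord h c hi hx ch l hP hz he a0 ha) (dvd_ord h c hi hx ch l hP hz he b0 hb)
  have e1 : (0 : ℝ) < P.ord (φ R.t) := by exact_mod_cast e0
  have H2 : P.ord (φ R.t) * E ≤ P.ord f := by
    have m1 : ∀ u : lo S p h.pri, u ∈ Ideal.span (range (xo h)) ^ k → (u : F) ≠ 0 →
        P.ord (φ R.t) * E ≤ P.ord u := fun u hu u0 => by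
      have := le_ord P ((lo S p h.pri).val : lo S p h.pri →+* F) hO (x := xo h)
        (m := P.ord (φ R.t) * ⌈μ⌉) (fun j => Or.inr ((mul_le_mul_of_nonneg_left
          (Int.ceil_le.2 (lw.mu j)) e0.le).trans_eq (ox j).symm)) hu u0
      have k1 : (k : ℝ) * (P.ord (φ R.t) * ⌈μ⌉) ≤ P.ord u := by exact_mod_cast this
      have k2 := lw.ek.trans (mul_le_mul_of_nonneg_left (Int.le_ceil μ) (Nat.cast_nonneg k))
      nlinarith
    have s := c.tay_spec f k
    rcases lw.eg with g0 | g1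
    · exact m1 f (by simpa [g0] using s) f0
    have k3 : P.ord (φ R.t) * E ≤
        P.ord (aeval (xo h) (truncTotal k (c.tay f)) : lo S p h.pri) := by
      have := congrArg (Int.cast (R := ℝ)) (ch.ord_aeval l (truncTotal k (c.tay f)))
      rw [Int.cast_mul] at this
      exact (mul_le_mul_of_nonneg_left g1 e1.le).trans_eq this.symm
    generalize aeval (xo h) (truncTotal k (c.tay f)) = u at s k3
    by_cases u0 : (u : F) = 0
    · exact m1 f (by simpa [show u = 0 from Subtype.ext u0] using s) f0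
    by_cases d0 : ((f - u : lo S p h.pri) : F) = 0
    · rw [show (f : F) = u from sub_eq_zero.1 d0]; exact k3
    have k4 := m1 _ s d0
    have e2 : (u : F) + (f - u : lo S p h.pri) = f := by push_cast; ring
    have k5 := Pl.min_ord_le_add P.toPlace u0 d0 (e2 ▸ f0)
    rw [e2] at k5
    exact (le_min k3 k4).trans (by exact_mod_cast k5)
  have H3 : kap x P + 1 = P.ord (φ R.t) * (kap (z0 N) R + 1) := ch.hur l
  have c1 : (((P.ord (φ R.t)).toNat * (r / Nat.gcd r e) : ℕ) : ℝ) =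
      P.ord (φ R.t) * (r / Nat.gcd r e : ℕ) := by
    have := congrArg (Int.cast (R := ℝ)) c0
    rwa [Int.cast_natCast, Int.cast_mul, Int.cast_natCast] at this
  have q0 : (0 : ℝ) < Q := by exact_mod_cast hQ
  have H4 : ε * (r / Nat.gcd r e : ℕ) ≤ Co.A0 (z0 N) R - E / Q := by
    refine le_of_mul_le_mul_left ?_ e1
    have := div_le_div_of_nonneg_right H2 q0.le
    rw [c1, ld] at H1
    rw [Co.A0, mul_div_assoc] at *
    linarith
  have c2 : (r : ℝ) = (Nat.gcd r e : ℕ) * (r / Nat.gcd r e : ℕ) := by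
    rw [← Nat.cast_mul, Nat.mul_div_cancel' (Nat.gcd_dvd_left r e)]
  have c3 : ((Nat.gcd r e : ℕ) : ℝ) ≤ e := by exact_mod_cast Nat.gcd_le_right r he
  have c4 : 0 ≤ ε * (r / Nat.gcd r e : ℕ) := by positivity
  calc ε * r = (Nat.gcd r e : ℕ) * (ε * (r / Nat.gcd r e : ℕ)) := by
        conv_lhs => rw [c2]
        ring
    _ ≤ e * (ε * (r / Nat.gcd r e : ℕ)) := mul_le_mul_of_nonneg_right c3 c4
    _ ≤ _ := mul_le_mul_of_nonneg_left H4 (Nat.cast_nonneg e)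

end

theorem lt_of (hT : Co.TT) (hD : DD) (hR : DER) : LT := by
  intro N Q ε hQ hε
  rcases N.eq_zero_or_pos with rfl | hN
  · exact ⟨1, one_pos, fun n _ _ _ F _ _ S p x A f h _ _ _ _ _ _ _ _ P _ =>
      (no_pl h.aff.ff P).elim⟩
  obtain ⟨n₀, h0, -, H⟩ := hT N Q ε hN hQ hε
  refine ⟨n₀, h0, fun n hn hd hq F _ _ S p x A f h fin hA hi hx hf f0 ef hy P hP => ?_⟩
  have c := crd_of hR h
  obtain ⟨d, hd'⟩ : ∃ d, (c.tay ⟨f, hf⟩).coeff d ≠ 0 := by
    by_contra k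
    push Not at k
    exact tay_ne h c (a := ⟨f, hf⟩) f0 (MvPowerSeries.ext k)
  obtain ⟨C, k, hC, K⟩ := hD N Q n _ _ _ hN hQ hn (H n hn hd _ _ _ (fi_latt (x_ne h c) hx)
    (cos_tay h c hi hx (a := ⟨f, hf⟩) f0 ef hd') (hy_of h c hi hx hA hQ hε (f := ⟨f, hf⟩) f0 hy))
  obtain ⟨φ, ch⟩ := exists_ch h c
  obtain ⟨R, l⟩ := ch.down P
  have e0 : 0 < P.ord (φ R.t) := l.e_pos
  have ox : ∀ j, P.ord (x j) = P.ord (φ R.t) * R.ord (z0 N j) := ch.ord_x l
  obtain ⟨k', k1, k2, k3⟩ := exists_trunc h c hP (a := ⟨f, hf⟩) f0 k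
  obtain ⟨a, ha, K1⟩ := K _ k2
    (MvPowerSeries.truncTotal_sub_truncTotal_mem_pow_idealOfVars k1 le_rfl _) R fun j =>
      (mul_pos_iff_of_pos_left e0).1 (ox j ▸ (cen_pos h hP j).resolve_left (x_ne h c j))
  refine ⟨a, fun σ hσ => ?_, ?_⟩
  · have e : (∏ j, x j ^ a j) * f ^ (n / Q) / (∏ j, x j) ^ n =
        (∏ j, x j ^ ((a j : ℤ) - n + (n / Q : ℕ) * d j)) *
          (f / ∏ j, x j ^ (d j : ℤ)) ^ (n / Q) := by
      have x0 := x_ne h c
      have p0 : ∏ j, x j ^ (d j : ℤ) ≠ 0 :=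
        Finset.prod_ne_zero_iff.2 fun j _ => zpow_ne_zero _ (x0 j)
      simp only [zpow_add₀ (x0 _), zpow_sub₀ (x0 _), zpow_mul', zpow_natCast,
        Finset.prod_mul_distrib, Finset.prod_div_distrib, Finset.prod_pow, div_pow] at p0 ⊢
      have := pow_ne_zero (n / Q) p0
      field_simp
    rw [e, map_mul, map_pow, hC a ha σ hσ, fix_div h c hi hx (a := ⟨f, hf⟩) f0 ef hd' σ hσ]
  · have H3 : kap x P + 1 = P.ord (φ R.t) * (kap (z0 N) R + 1) := ch.hur l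
    have H4 : P.ord f = P.ord (φ R.t) * _ := k3.symm.trans (ch.ord_aeval l _)
    have e1 : (0 : ℝ) < P.ord (φ R.t) := by exact_mod_cast e0
    have H5 := mul_lt_mul_of_pos_left K1 e1
    have H6 : ∑ j, (a j : ℝ) * P.ord (x j) =
        P.ord (φ R.t) * ∑ j, (a j : ℝ) * R.ord (z0 N j) := by
      rw [Finset.mul_sum]
      exact Finset.sum_congr rfl fun j _ => by rw [ox]; push_cast; ring
    rw [ld, H4, H6]
    rw [Co.A0] at H5
    push_cast
    rw [mul_div_assoc, mul_div_assoc]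
    linarith

end Vale.Agent.P283R.Ty
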