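import Vale.Agent.P283R.He.Doi

/-!
# P283R, block TY: integer Helly with convex constraints, rounding after doubling
-/

open Finset

namespace Vale.Agent.P283R.Ty.H53

variable {A ι ω α β : Type} [Fintype A]

/-- the theorem of Doignon for any finite index type -/
theorem doi (s : Finset ι) (ρ : ι → A → ℝ) (c : ι → ℝ)
    (h : ∀ t ⊆ s, t.card ≤ 2 ^ Fintype.card A → ∃ m : A → ℤ, ∀ i ∈ t, c i ≤ ∑ k, m k * ρ i k) :
    ∃ m : A → ℤ, ∀ i ∈ s, c i ≤ ∑ k, m k * ρ i k := by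
  let e := Fintype.equivFin A
  obtain ⟨m, h1, -⟩ := He.helly_rays s (fun i k => ρ i (e.symm k)) c 0 1 fun t ht hc => by
    obtain ⟨m, h1⟩ := h t ht hc
    refine ⟨fun k => m (e.symm k), fun i hi => ?_, by simp⟩
    have := h1 i hi
    rwa [← Equiv.sum_comp e.symm] at this
  refine ⟨fun k => m (e k), fun i hi => ?_⟩
  rw [← Equiv.sum_comp e.symm]
  simpa only [Equiv.apply_symm_apply] using h1 i hi

open Classical in
/-- Helly over the constraints `Om`, the pages in `I` are rounded -/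
theorem hr (Om : Finset ω) (I : Finset α) (Pi : α → Finset β) (ne : ∀ p ∈ I, (Pi p).Nonempty)
    (μ : β → ℕ) (μ0 : ∀ p ∈ I, ∀ P ∈ Pi p, 0 < μ P) (k : β → ℤ) (Y : β → A → ℤ) (lin : ω → A → ℤ)
    (c : ω → ℤ) (W : α → ω → ℕ)
    (hv : ∀ o ∈ Om, ∑ p ∈ I with ∃ P ∈ Pi p, 3 ≤ μ P, W p o ≤ 1)
    (sub : ∀ E ⊆ Om, E.card ≤ 2 ^ Fintype.card A → ∃ (x : A → ℤ) (n : α → ℤ),
      (∀ p ∈ I, ∀ P ∈ Pi p, k P ≤ μ P * n p + x ⬝ᵥ Y P) ∧
        ∀ o ∈ E, c o + ∑ p ∈ I, n p * W p o ≤ x ⬝ᵥ lin o) :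
    ∃ (x : A → ℤ) (n : α → ℤ), (∀ p ∈ I, ∀ P ∈ Pi p, 2 * k P ≤ μ P * n p + x ⬝ᵥ Y P) ∧
      ∀ o ∈ Om, 2 * c o + ∑ p ∈ I, n p * W p o ≤ x ⬝ᵥ lin o := by
  let ψ : (A → ℤ) → β → ℝ := fun x P => (k P - x ⬝ᵥ Y P : ℤ) / μ P
  have key : ∀ (x : A → ℤ) (o : ω) (τ : I → β),
      ((c o : ℝ) + ∑ p : I, (k (τ p) : ℝ) / μ (τ p) * W p o ≤
        ∑ a, x a * ((lin o a : ℝ) + ∑ p : I, (Y (τ p) a : ℝ) / μ (τ p) * W p o)) ↔
      (c o : ℝ) + ∑ p : I, ψ x (τ p) * W p o ≤ (x ⬝ᵥ lin o : ℤ) := fun x o τ => by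
    have : ∑ a, x a * ((lin o a : ℝ) + ∑ p : I, (Y (τ p) a : ℝ) / μ (τ p) * W p o) =
        (x ⬝ᵥ lin o : ℤ) + ∑ p : I, (x ⬝ᵥ Y (τ p) : ℤ) / μ (τ p) * (W p o : ℝ) := by
      simp only [mul_add, sum_add_distrib, mul_sum, dotProduct, Int.cast_sum, Int.cast_mul,
        sum_div, sum_mul]
      rw [sum_comm]
      exact congrArg _ (sum_congr rfl fun _ _ => sum_congr rfl fun _ _ => by ring)
    rw [this]
    simp only [ψ, Int.cast_sub, sub_div, sub_mul, sum_sub_distrib]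
    constructor <;> intro h <;> linarith
  have le : ∀ (x : A → ℤ) (r : ℝ), ∀ p ∈ I, ∀ P ∈ Pi p,
      ψ x P ≤ r ↔ (k P : ℝ) ≤ μ P * r + (x ⬝ᵥ Y P : ℤ) := fun x r p a P b => by
    rw [div_le_iff₀ (Nat.cast_pos.2 (μ0 p a P b)), Int.cast_sub, sub_le_iff_le_add, mul_comm]
  obtain ⟨x, hx⟩ := doi (Om ×ˢ Fintype.piFinset fun p : I => Pi p)
    (fun i a => (lin i.1 a : ℝ) + ∑ p : I, (Y (i.2 p) a : ℝ) / μ (i.2 p) * W p i.1)
    (fun i => (c i.1 : ℝ) + ∑ p : I, (k (i.2 p) : ℝ) / μ (i.2 p) * W p i.1) fun t ht hc => by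
      obtain ⟨x, n, h1, h2⟩ := sub (t.image Prod.fst)
        (fun o a => by
          obtain ⟨i, b, rfl⟩ := mem_image.1 a
          exact (mem_product.1 (ht b)).1) (card_image_le.trans hc)
      refine ⟨x, fun i a => (key x i.1 i.2).2 ?_⟩
      have h3 : ((c i.1 + ∑ p ∈ I, n p * W p i.1 : ℤ) : ℝ) ≤ (x ⬝ᵥ lin i.1 : ℤ) :=
        Int.cast_le.2 (h2 _ (mem_image_of_mem _ a))
      refine le_trans ?_ h3
      push_cast
      rw [← sum_coe_sort I]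
      refine add_le_add le_rfl (sum_le_sum fun p _ => mul_le_mul_of_nonneg_right ?_ (by positivity))
      have b := Fintype.mem_piFinset.1 (mem_product.1 (ht a)).2 p
      exact (le x _ p p.2 _ b).2 (by exact_mod_cast h1 p p.2 _ b)
  have mx : ∀ p : I, ∃ P ∈ Pi p, ∀ P' ∈ Pi p, ψ x P' ≤ ψ x P := fun p =>
    exists_max_image _ _ (ne p p.2)
  choose τ t1 t2 using mx
  let n : α → ℤ := fun p => if h : p ∈ I then ⌈2 * ψ x (τ ⟨p, h⟩)⌉ else 0
  have en : ∀ p : I, n p = ⌈2 * ψ x (τ p)⌉ := fun p => dif_pos p.2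
  refine ⟨2 • x, n, fun p a P b => ?_, fun o a => ?_⟩
  · have := (le x _ p a P b).1 ((t2 ⟨p, a⟩ P b).trans
      (show ψ x (τ ⟨p, a⟩) ≤ (n p : ℝ) / 2 by
        rw [en ⟨p, a⟩]
        linarith [Int.le_ceil (2 * ψ x (τ ⟨p, a⟩))]))
    rw [smul_dotProduct, nsmul_eq_mul, ← Int.cast_le (R := ℝ)]
    push_cast at this ⊢
    linarith
  · have h := (key x o τ).1 (hx (o, τ) (mem_product.2 ⟨a, Fintype.mem_piFinset.2 t1⟩))
    have g : ∀ p : I, (¬ ∃ P ∈ Pi p, 3 ≤ μ P) → (n p : ℝ) = 2 * ψ x (τ p) := fun p b => by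
      have b1 := μ0 p p.2 _ (t1 p)
      have b2 : μ (τ p) < 3 := not_le.1 fun z => b ⟨_, t1 p, z⟩
      rw [en]
      obtain e | e : μ (τ p) = 1 ∨ μ (τ p) = 2 := by omega
      · have : 2 * ψ x (τ p) = (2 * (k (τ p) - x ⬝ᵥ Y (τ p)) : ℤ) := by simp [ψ, e]
        rw [this, Int.ceil_intCast]
      · have : 2 * ψ x (τ p) = (k (τ p) - x ⬝ᵥ Y (τ p) : ℤ) := by
          simp only [ψ, e]
          push_cast
          ring
        rw [this, Int.ceil_intCast]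
    have u : ∀ p : I, (n p : ℝ) - 2 * ψ x (τ p) < 1 := fun p => by
      rw [en]
      linarith [Int.ceil_lt_add_one (2 * ψ x (τ p))]
    have s1 : ∑ p : I, ((n p : ℝ) - 2 * ψ x (τ p)) * W p o < 1 := by
      have v := hv o a
      rw [sum_filter, ← sum_coe_sort I, ← Nat.cast_le (α := ℝ)] at v
      push_cast at v
      have w : ∀ p : I, ((n p : ℝ) - 2 * ψ x (τ p)) * W p o ≤
          if ∃ P ∈ Pi p, 3 ≤ μ P then (W p o : ℝ) else 0 := fun p => by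
        split_ifs with b
        · exact mul_le_of_le_one_left (by positivity) (u p).le
        · rw [g p b, sub_self, zero_mul]
      by_cases z : ∃ p : I, (∃ P ∈ Pi p, 3 ≤ μ P) ∧ 0 < W p o
      · obtain ⟨p, z1, z2⟩ := z
        refine (sum_lt_sum (fun p _ => w p) ⟨p, mem_univ _, ?_⟩).trans_le v
        rw [if_pos z1]
        exact mul_lt_of_lt_one_left (Nat.cast_pos.2 z2) (u p)
      · refine (sum_nonpos fun p _ => (w p).trans ?_).trans_lt one_pos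
        split_ifs with b
        · exact Nat.cast_nonpos.2 (Nat.le_zero.1 (not_lt.1 fun y => z ⟨p, b, y⟩))
        · exact le_rfl
    rw [smul_dotProduct, nsmul_eq_mul, ← Int.lt_add_one_iff, ← Int.cast_lt (R := ℝ),
      ← sum_coe_sort I]
    simp only [sub_mul, sum_sub_distrib, mul_assoc, ← mul_sum] at s1
    push_cast at h ⊢
    linarith

end Vale.Agent.P283R.Ty.H53
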