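import Mathlib

/-!
# P283R, block TAY: coordinates in a smooth local ring
-/

open IsLocalRing Set

noncomputable section

namespace Vale.Agent.P283R.Ty.Sm

variable {k O : Type} [Field k] [CommRing O] [IsLocalRing O] [Algebra k O] {N : ℕ}

variable (k O) in
/-- the residue field is the ground field -/
def Res : Prop := ∀ a : O, ∃ c : k, a - algebraMap k O c ∈ maximalIdeal O

variable (k) in
/-- the classes of the `x j` in `m / m ^ 2` are linearly independent -/
def Ind (x : Fin N → O) : Prop :=
  ∀ c : Fin N → k, ∑ j, c j • x j ∈ maximalIdeal O ^ 2 → c = 0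

variable (k) in
/-- the classes of the `x j` span `m / m ^ 2` -/
def Spn (x : Fin N → O) : Prop :=
  ∀ a ∈ maximalIdeal O, ∃ c : Fin N → k, a - ∑ j, c j • x j ∈ maximalIdeal O ^ 2

theorem Res.bij (h : Res k O) : Function.Bijective (Algebra.ofId k (ResidueField O)) := by
  refine ⟨(Algebra.ofId k (ResidueField O)).toRingHom.injective, fun y => ?_⟩
  obtain ⟨a, rfl⟩ := residue_surjective y
  obtain ⟨c, hc⟩ := h a
  refine ⟨c, ?_⟩
  have := (residue_eq_zero_iff _).2 hc
  rw [map_sub, sub_eq_zero] at this
  rw [this]
  rfl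

/-- the value at the closed point -/
theorem Res.exists_val (h : Res k O) : ∃ ρ : O →ₐ[k] k,
    ∀ a, a - algebraMap k O (ρ a) ∈ maximalIdeal O := by
  let e := AlgEquiv.ofBijective _ h.bij
  refine ⟨e.symm.toAlgHom.comp (IsScalarTower.toAlgHom k O (ResidueField O)), fun a => ?_⟩
  rw [← residue_eq_zero_iff, map_sub, sub_eq_zero]
  exact (e.apply_symm_apply (residue O a)).symm

theorem val_zero {ρ : O →ₐ[k] k} (hρ : ∀ a, a - algebraMap k O (ρ a) ∈ maximalIdeal O) {a : O}
    (ha : a ∈ maximalIdeal O) : ρ a = 0 := by
  by_contra h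
  have h1 : algebraMap k O (ρ a) ∈ maximalIdeal O := by
    have := Ideal.sub_mem _ ha (hρ a)
    simpa using this
  exact h1 ((IsUnit.mk0 _ h).map _)

theorem sum_app {R A M ι : Type*} [CommRing R] [CommRing A] [Algebra R A] [AddCommGroup M]
    [Module A M] [Module R M] (s : Finset ι) (D : ι → Derivation R A M) (a : A) :
    (∑ i ∈ s, D i) a = ∑ i ∈ s, D i a := by
  classical
  induction s using Finset.induction_on with
  | empty => simp
  | insert i s hi ih => rw [Finset.sum_insert hi, Finset.sum_insert hi, Derivation.add_apply, ih]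

theorem exists_fun {x : Fin N → O} (hi : Ind k x) : ∃ l : O →ₗ[k] (Fin N → k),
    (∀ a ∈ maximalIdeal O ^ 2, l a = 0) ∧ ∀ j, l (x j) = Pi.single j 1 := by
  let W : Submodule k O := (maximalIdeal O ^ 2 : Ideal O).restrictScalars k
  let f : (Fin N → k) →ₗ[k] O ⧸ W := Fintype.linearCombination k fun j => W.mkQ (x j)
  have hf : LinearMap.ker f = ⊥ := by
    rw [LinearMap.ker_eq_bot']
    intro c hc
    apply hi c
    have : W.mkQ (∑ j, c j • x j) = 0 := by
      rw [← hc]
      simp [f, Fintype.linearCombination_apply, map_sum]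
    exact (Submodule.Quotient.mk_eq_zero W).1 this
  obtain ⟨g, hg⟩ := f.exists_leftInverse_of_injective hf
  refine ⟨g ∘ₗ W.mkQ, fun a ha => ?_, fun j => ?_⟩
  · have : W.mkQ a = 0 := (Submodule.Quotient.mk_eq_zero W).2 ha
    simp [this]
  · have h1 : f (Pi.single j 1) = W.mkQ (x j) := by
      simp [f]
    rw [LinearMap.comp_apply, ← h1, ← LinearMap.comp_apply, hg]
    rfl

/-- partial derivatives with respect to a regular system of parameters -/
theorem exists_der [Algebra.FormallySmooth k O] (h : Res k O) {x : Fin N → O}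
    (hx : ∀ j, x j ∈ maximalIdeal O) (hi : Ind k x) :
    ∃ D : Fin N → Derivation k O O, ∀ i j, D i (x j) = if i = j then 1 else 0 := by
  classical
  obtain ⟨ρ, hρ⟩ := h.exists_val
  obtain ⟨l, hl0, hl1⟩ := exists_fun hi
  let L : O →ₗ[k] O := LinearMap.id - Algebra.linearMap k O ∘ₗ ρ.toLinearMap
  have hL : ∀ a, L a = a - algebraMap k O (ρ a) := fun a => rfl
  have hres : ∀ a : O, algebraMap O (ResidueField O) a = algebraMap k (ResidueField O) (ρ a) := by
    intro a
    have := (residue_eq_zero_iff _).2 (hρ a)
    rw [map_sub, sub_eq_zero] at this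
    exact this
  let d : Fin N → Derivation k O (ResidueField O) := fun i => Derivation.mk'
    (Algebra.linearMap k _ ∘ₗ LinearMap.proj i ∘ₗ l ∘ₗ L) (by
      intro a b
      have e : L (a * b) = L a * L b + ρ a • L b + ρ b • L a := by
        simp only [hL, map_mul, Algebra.smul_def]
        ring
      have z : l (L a * L b) = 0 := hl0 _ (by
        rw [pow_two]
        exact Ideal.mul_mem_mul (hρ a) (hρ b))
      simp only [LinearMap.comp_apply, e, map_add, z, map_smul, zero_add]
      simp only [Algebra.linearMap_apply, Algebra.smul_def, hres])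
  have hd : ∀ i j, d i (x j) = if i = j then 1 else 0 := by
    intro i j
    have : L (x j) = x j := by rw [hL, val_zero hρ (hx j)]; simp
    change algebraMap k _ (l (L (x j)) i) = _
    rw [this, hl1, Pi.single_apply]
    split_ifs <;> simp
  have hs : Function.Surjective (Algebra.linearMap O (ResidueField O)) := residue_surjective
  choose φ hφ using fun i => Module.projective_lifting_property (Algebra.linearMap O _)
    (d i).liftKaehlerDifferential hs
  let D' : Fin N → Derivation k O O := fun i => (φ i).compDer (KaehlerDifferential.D k O)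
  have hD' : ∀ i a, residue O (D' i a) = d i a := by
    intro i a
    have := LinearMap.congr_fun (hφ i) (KaehlerDifferential.D k O a)
    rw [Derivation.liftKaehlerDifferential_comp_D] at this
    exact this
  let A : Matrix (Fin N) (Fin N) O := Matrix.of fun i j => D' i (x j)
  have hA : IsUnit A.det := by
    have h1 : (residue O).mapMatrix A = 1 := by
      ext i j
      simp [A, hD', hd, Matrix.one_apply]
    have h2 : residue O A.det = 1 := by
      rw [RingHom.map_det, h1, Matrix.det_one]
    by_contra hu
    have := (residue_eq_zero_iff _).2 (show A.det ∈ maximalIdeal O from hu)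
    rw [h2] at this
    exact one_ne_zero this
  refine ⟨fun i => ∑ m, A⁻¹ i m • D' m, fun i j => ?_⟩
  have := congrFun (congrFun (Matrix.nonsing_inv_mul A hA) i) j
  rw [Matrix.mul_apply, Matrix.one_apply] at this
  rw [← this]
  simp [sum_app, A]

/-- Nakayama -/
theorem span_eq [IsNoetherianRing O] {x : Fin N → O} (hx : ∀ j, x j ∈ maximalIdeal O)
    (hs : Spn k x) : Ideal.span (range x) = maximalIdeal O := by
  apply le_antisymm
  · rw [Ideal.span_le]
    rintro _ ⟨j, rfl⟩
    exact hx j
  · refine Submodule.le_of_le_smul_of_le_jacobson_bot (I := maximalIdeal O)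
      (IsNoetherian.noetherian _) (maximalIdeal_le_jacobson _) fun a ha => ?_
    obtain ⟨c, hc⟩ := hs a ha
    have e : a = ∑ j, c j • x j + (a - ∑ j, c j • x j) := by ring
    rw [e]
    refine Submodule.add_mem_sup (Ideal.sum_mem _ fun j _ => ?_) ?_
    · rw [Algebra.smul_def]
      exact Ideal.mul_mem_left _ _ (Ideal.subset_span ⟨j, rfl⟩)
    · simpa [pow_two] using hc

/-- generators of the maximal ideal span the cotangent space -/
theorem spn_of_span (h : Res k O) {x : Fin N → O}
    (hs : Ideal.span (range x) = maximalIdeal O) : Spn k x := by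
  intro a ha
  rw [← hs] at ha
  obtain ⟨b, rfl⟩ := Ideal.mem_span_range_iff_exists_fun.1 ha
  choose c hc using fun j => h (b j)
  refine ⟨c, ?_⟩
  rw [← Finset.sum_sub_distrib]
  refine Ideal.sum_mem _ fun j _ => ?_
  rw [Algebra.smul_def, ← sub_mul, pow_two]
  exact Ideal.mul_mem_mul (hc j) (hs ▸ Ideal.subset_span ⟨j, rfl⟩)

/-- there is a basis of the cotangent space -/
theorem exists_basis [IsNoetherianRing O] (h : Res k O) : ∃ (N : ℕ) (x : Fin N → O),
    (∀ j, x j ∈ maximalIdeal O) ∧ Ind k x ∧ Spn k x := by
  classical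
  have ex : ∃ N : ℕ, ∃ x : Fin N → O, (∀ j, x j ∈ maximalIdeal O) ∧ Spn k x := by
    obtain ⟨n, y, hy⟩ := Submodule.fg_iff_exists_fin_generating_family.1
      (IsNoetherian.noetherian (maximalIdeal O))
    exact ⟨n, y, fun j => hy ▸ Submodule.subset_span ⟨j, rfl⟩, spn_of_span h hy⟩
  obtain ⟨x, hx, hs⟩ := Nat.find_spec ex
  have hmin := fun m (hm : m < Nat.find ex) => Nat.find_min ex hm
  generalize Nat.find ex = n at x hx hs hmin
  refine ⟨n, x, hx, fun c hc => ?_, hs⟩
  by_contra h0
  obtain ⟨j, hj⟩ := Function.ne_iff.1 h0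
  obtain _ | n := n
  · exact j.elim0
  refine hmin n (Nat.lt_succ_self n) ⟨fun i => x (j.succAbove i), fun i => hx _, fun a ha => ?_⟩
  obtain ⟨b, hb⟩ := hs a ha
  refine ⟨fun i => b (j.succAbove i) - b j * (c j)⁻¹ * c (j.succAbove i), ?_⟩
  have hj' : c j ≠ 0 := hj
  have e : a - ∑ i, (b (j.succAbove i) - b j * (c j)⁻¹ * c (j.succAbove i)) • x (j.succAbove i) =
      (a - ∑ i, b i • x i) + (b j * (c j)⁻¹) • ∑ i, c i • x i := by
    rw [Fin.sum_univ_succAbove _ j, Fin.sum_univ_succAbove (fun i => c i • x i) j, smul_add,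
      smul_smul, Finset.smul_sum, inv_mul_cancel_right₀ hj']
    simp only [sub_smul, Finset.sum_sub_distrib, smul_smul]
    abel
  rw [e, Algebra.smul_def]
  exact Ideal.add_mem _ hb (Ideal.mul_mem_left _ _ hc)

/-- Krull -/
theorem krull [IsNoetherianRing O] {a : O} (h : ∀ n : ℕ, a ∈ maximalIdeal O ^ n) : a = 0 := by
  have := Ideal.iInf_pow_eq_bot_of_isLocalRing (maximalIdeal O) (maximalIdeal.isMaximal O).ne_top
  rw [← Ideal.mem_bot, ← this]
  exact Ideal.mem_iInf.2 h

/-- the differentials of the parameters generate the module of differentials -/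
theorem span_d [Algebra.EssFiniteType k O] (h : Res k O) {x : Fin N → O}
    (hs : Ideal.span (range x) = maximalIdeal O) :
    Submodule.span O (range fun j => KaehlerDifferential.D k O (x j)) = ⊤ := by
  rw [eq_top_iff]
  refine Submodule.le_of_le_smul_of_le_jacobson_bot (I := maximalIdeal O)
    Module.Finite.fg_top (maximalIdeal_le_jacobson _) ?_
  conv_lhs => rw [← KaehlerDifferential.span_range_derivation]
  rw [Submodule.span_le]
  rintro _ ⟨a, rfl⟩
  obtain ⟨c, hc⟩ := h a
  rw [← hs] at hc
  obtain ⟨b, hb⟩ := Ideal.mem_span_range_iff_exists_fun.1 hc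
  have e : KaehlerDifferential.D k O a = ∑ j, KaehlerDifferential.D k O (b j * x j) := by
    rw [← map_sum, hb, map_sub, Derivation.map_algebraMap, sub_zero]
  rw [SetLike.mem_coe, e]
  refine Submodule.sum_mem _ fun j _ => ?_
  rw [Derivation.leibniz]
  exact Submodule.add_mem_sup (Submodule.smul_mem _ _ (Submodule.subset_span ⟨j, rfl⟩))
    (Submodule.smul_mem_smul (hs ▸ Ideal.subset_span ⟨j, rfl⟩) Submodule.mem_top)

/-- a derivation that kills the parameters vanishes -/
theorem der_zero [Algebra.EssFiniteType k O] (h : Res k O) {x : Fin N → O}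
    (hs : Ideal.span (range x) = maximalIdeal O) {M : Type*} [AddCommGroup M] [Module O M]
    [Module k M] [IsScalarTower k O M] (δ : Derivation k O M) (h0 : ∀ j, δ (x j) = 0) (a : O) :
    δ a = 0 := by
  have h1 : Submodule.span O (range fun j => KaehlerDifferential.D k O (x j)) ≤
      LinearMap.ker δ.liftKaehlerDifferential := by
    rw [Submodule.span_le]
    rintro _ ⟨j, rfl⟩
    simpa using h0 j
  rw [span_d h hs] at h1
  simpa using h1 (Submodule.mem_top (x := KaehlerDifferential.D k O a))

/-- the chain rule -/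
theorem der_eq [Algebra.EssFiniteType k O] (h : Res k O) {x : Fin N → O}
    (hs : Ideal.span (range x) = maximalIdeal O) {D : Fin N → Derivation k O O}
    (hD : ∀ i j, D i (x j) = if i = j then 1 else 0) {M : Type*} [AddCommGroup M] [Module O M]
    [Module k M] [IsScalarTower k O M] (δ : Derivation k O M) (a : O) :
    δ a = ∑ j, D j a • δ (x j) := by
  have := der_zero h hs (δ - ∑ j, (LinearMap.toSpanSingleton O M (δ (x j))).compDer (D j))
    (fun j => by simp [sum_app, hD]) a
  simpa [sum_app, sub_eq_zero] using this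

/-- the fraction field is finite over the field generated by the parameters -/
theorem fin [Algebra.EssFiniteType k O] (h : Res k O) {x : Fin N → O}
    (hs : Ideal.span (range x) = maximalIdeal O) (F : Type) [Field F] [Algebra O F] [Algebra k F]
    [IsScalarTower k O F] [IsFractionRing O F] :
    FiniteDimensional (IntermediateField.adjoin k (range fun j => algebraMap O F (x j))) F := by
  set K := IntermediateField.adjoin k (range fun j => algebraMap O F (x j)) with hK
  have : SMulCommClass K O F := ⟨fun a b c => by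
    simp only [Algebra.smul_def]
    ring⟩
  have h0 : ∀ a : O, KaehlerDifferential.D K F (algebraMap O F a) = 0 := by
    intro a
    refine der_zero h hs (((KaehlerDifferential.D K F).restrictScalars k).compAlgebraMap O)
      (fun j => ?_) a
    exact (KaehlerDifferential.D K F).map_algebraMap
      ⟨algebraMap O F (x j), IntermediateField.subset_adjoin _ _ ⟨j, rfl⟩⟩
  have h1 : ∀ y : F, KaehlerDifferential.D K F y = 0 := by
    intro y
    obtain ⟨a, b, hb, rfl⟩ := IsFractionRing.div_surjective (A := O) y
    rw [Derivation.leibniz_div, h0, h0]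
    simp
  have : Algebra.FormallyUnramified K F := by
    refine ⟨subsingleton_of_forall_eq 0 fun w => ?_⟩
    have : w ∈ Submodule.span F (range (KaehlerDifferential.D K F)) := by
      rw [KaehlerDifferential.span_range_derivation]
      trivial
    refine (Submodule.mem_bot F).1 ((Submodule.span_le.2 ?_) this)
    rintro _ ⟨y, rfl⟩
    exact h1 y
  have : Algebra.EssFiniteType O F :=
    Algebra.EssFiniteType.of_isLocalization F (nonZeroDivisors O)
  have : Algebra.EssFiniteType k F := Algebra.EssFiniteType.comp k O F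
  have : Algebra.EssFiniteType K F := Algebra.EssFiniteType.of_comp k K F
  exact Algebra.FormallyUnramified.finite_of_free K F

end Vale.Agent.P283R.Ty.Sm
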