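import Mathlib

/-!
# P283R, block TAY: Taylor series at a rational point with respect to local coordinates
-/

open Set MvPolynomial
open MvPowerSeries (truncTotal coeff_truncTotal rescale)

noncomputable section

namespace Vale.Agent.P283R.Ty

variable {k O σ : Type} [Field k] [CommRing O] [Algebra k O] {x : σ → O}

variable (k) in
/-- `x` are local coordinates at a rational point -/
structure Crd (x : σ → O) : Prop where
  res : ∀ a : O, ∃ c : k, a - algebraMap k O c ∈ Ideal.span (range x)
  ind : ∀ (n : ℕ) (p : MvPolynomial σ k), aeval x p ∈ Ideal.span (range x) ^ n →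
    p ∈ idealOfVars σ k ^ n

theorem x_mem (x : σ → O) (j : σ) : x j ∈ Ideal.span (range x) := Ideal.subset_span ⟨j, rfl⟩

theorem aeval_mem (x : σ → O) {n : ℕ} {p : MvPolynomial σ k} (h : p ∈ idealOfVars σ k ^ n) :
    aeval x p ∈ Ideal.span (range x) ^ n := by
  have h1 := Ideal.mem_map_of_mem (aeval x : MvPolynomial σ k →ₐ[k] O) h
  rw [Ideal.map_pow] at h1
  refine Ideal.pow_right_mono ?_ n h1
  rw [idealOfVars, Ideal.map_span, Ideal.span_le]
  rintro _ ⟨_, ⟨j, rfl⟩, rfl⟩
  simpa using x_mem x j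

theorem der_mem (D : Derivation k O O) (I : Ideal O) (n : ℕ) {a : O} (h : a ∈ I ^ (n + 1)) :
    D a ∈ I ^ n := by
  induction n generalizing a with
  | zero => simp
  | succ n ih =>
    rw [pow_succ] at h
    refine Submodule.mul_induction_on h (fun u hu v hv => ?_) fun u v hu hv => ?_
    · rw [D.leibniz, smul_eq_mul, smul_eq_mul]
      refine add_mem (Ideal.mul_mem_right _ _ hu) ?_
      rw [pow_succ']
      exact Ideal.mul_mem_mul hv (ih hu)
    · rw [map_add]; exact add_mem hu hv

theorem der_aeval [DecidableEq σ] (D : Derivation k O O) (i : σ)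
    (h : ∀ j, D (x j) = if i = j then 1 else 0) (p : MvPolynomial σ k) :
    D (aeval x p) = aeval x (pderiv i p) := by
  induction p using MvPolynomial.induction_on with
  | C a => simp
  | add p q hp hq => simp [hp, hq]
  | mul_X p j hp =>
    rw [map_mul, D.leibniz, hp, aeval_X, h, Derivation.leibniz, pderiv_X, Pi.single_apply]
    by_cases e : i = j
    · simp [e]
    · simp [e, Ne.symm e]

/-- coordinates from dual derivations -/
theorem Crd.of_der [CharZero k] [DecidableEq σ]
    (res : ∀ a : O, ∃ c : k, a - algebraMap k O c ∈ Ideal.span (range x))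
    (ne : Ideal.span (range x) ≠ ⊤) (D : σ → Derivation k O O)
    (h : ∀ i j, D i (x j) = if i = j then 1 else 0) : Crd k x := by
  refine ⟨res, fun n => ?_⟩
  induction n with
  | zero => simp
  | succ n ih =>
    intro p hp
    rw [mem_pow_idealOfVars_iff']
    intro d hd
    by_cases d0 : d = 0
    · subst d0
      by_contra hc
      have h1 : p - C (coeff 0 p) ∈ idealOfVars σ k ^ 1 :=
        (mem_pow_idealOfVars_iff' ..).2 fun e he => by
          obtain rfl : e = 0 := (Finsupp.degree_eq_zero_iff e).1 (by omega)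
          simp
      have h2 := aeval_mem x h1
      rw [pow_one, map_sub, aeval_C] at h2
      have h3 := sub_mem (Ideal.pow_le_self (Nat.succ_ne_zero n) hp) h2
      rw [sub_sub_cancel] at h3
      exact ne (Ideal.eq_top_of_isUnit_mem _ h3 ((IsUnit.mk0 _ hc).map _))
    · obtain ⟨i, hi⟩ := Finsupp.ne_iff.1 d0
      have hi' : Finsupp.single i 1 ≤ d := Finsupp.single_le_iff.2 (Nat.pos_of_ne_zero hi)
      obtain ⟨e, rfl⟩ := exists_add_of_le hi'
      have h1 := ih (pderiv i p) (der_aeval (D i) i (h i) p ▸ der_mem (D i) _ n hp)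
      rw [mem_pow_idealOfVars_iff'] at h1
      have h2 := h1 e (by simp at hd; omega)
      rw [coeff_pderiv, add_comm e] at h2
      exact (mul_eq_zero.1 h2).resolve_right (Nat.cast_add_one_ne_zero _)

theorem Crd.ne (h : Crd k x) : Ideal.span (range x) ≠ ⊤ := fun e => by
  have h1 := (mem_pow_idealOfVars_iff' ..).1 (h.ind 1 1 (by simp [e])) 0 (by simp)
  simp at h1

theorem Crd.step (h : Crd k x) (n : ℕ) {a : O} (ha : a ∈ Ideal.span (range x) ^ n) :
    ∃ p : MvPolynomial σ k, a - aeval x p ∈ Ideal.span (range x) ^ (n + 1) := by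
  have one : ∀ v ∈ Ideal.span (range x), ∃ p : MvPolynomial σ k,
      v - aeval x p ∈ Ideal.span (range x) ^ 2 := fun v hv => by
    have : ∀ b : O, ∃ p : MvPolynomial σ k, b * v - aeval x p ∈ Ideal.span (range x) ^ 2 := by
      induction hv using Submodule.span_induction with
      | mem v hv =>
        obtain ⟨j, rfl⟩ := hv
        intro b
        obtain ⟨c, hc⟩ := h.res b
        refine ⟨C c * X j, ?_⟩
        rw [map_mul, aeval_C, aeval_X, ← sub_mul, sq]
        exact Ideal.mul_mem_mul hc (x_mem x j)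
      | zero => exact fun b => ⟨0, by simp⟩
      | add u v _ _ hu hv =>
        intro b
        obtain ⟨p, hp⟩ := hu b
        obtain ⟨q, hq⟩ := hv b
        exact ⟨p + q, by convert add_mem hp hq using 1; rw [map_add]; ring⟩
      | smul c u _ hu => exact fun b => by simpa [mul_assoc] using hu (b * c)
    simpa using this 1
  induction n generalizing a with
  | zero =>
    obtain ⟨c, hc⟩ := h.res a
    exact ⟨C c, by simpa using hc⟩
  | succ n ih =>
    rw [pow_succ] at ha
    refine Submodule.mul_induction_on ha (fun u hu v hv => ?_) fun u v ⟨p, hp⟩ ⟨q, hq⟩ =>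
      ⟨p + q, by convert add_mem hp hq using 1; rw [map_add]; ring⟩
    obtain ⟨p, hp⟩ := ih hu
    obtain ⟨q, hq⟩ := one v hv
    have h1 : aeval x q ∈ Ideal.span (range x) := by
      simpa using sub_mem hv (Ideal.pow_le_self two_ne_zero hq)
    have h2 := Ideal.mul_mem_mul hu hq
    have h3 := Ideal.mul_mem_mul hp h1
    rw [← pow_add] at h2
    rw [← pow_succ] at h3
    exact ⟨p * q, by convert add_mem h2 h3 using 1; rw [map_mul]; ring⟩

theorem Crd.approx (h : Crd k x) (n : ℕ) (a : O) :
    ∃ p : MvPolynomial σ k, a - aeval x p ∈ Ideal.span (range x) ^ n := by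
  induction n with
  | zero => exact ⟨0, by simp⟩
  | succ n ih =>
    obtain ⟨p, hp⟩ := ih
    obtain ⟨q, hq⟩ := h.step n hp
    exact ⟨p + q, by rwa [map_add, ← sub_sub]⟩

theorem Crd.coeff_eq (h : Crd k x) {n : ℕ} {a : O} {p q : MvPolynomial σ k}
    (hp : a - aeval x p ∈ Ideal.span (range x) ^ n) (hq : a - aeval x q ∈ Ideal.span (range x) ^ n)
    {d : σ →₀ ℕ} (hd : d.degree < n) : coeff d p = coeff d q := by
  have h1 := sub_mem hq hp
  rw [sub_sub_sub_cancel_left, ← map_sub] at h1
  rw [← sub_eq_zero, ← coeff_sub]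
  exact (mem_pow_idealOfVars_iff' ..).1 (h.ind n _ h1) d hd

variable [Finite σ]

/-- `s` is the Taylor series of `a` -/
def Tay (x : σ → O) (a : O) (s : MvPowerSeries σ k) : Prop :=
  ∀ n, a - aeval x (truncTotal n s) ∈ Ideal.span (range x) ^ n

theorem Tay.of_approx {a : O} {s : MvPowerSeries σ k}
    (h : ∀ n, ∃ p : MvPolynomial σ k, a - aeval x p ∈ Ideal.span (range x) ^ n ∧
      ∀ d, d.degree < n → coeff d p = s.coeff d) : Tay x a s := fun n => by
  obtain ⟨p, hp, e⟩ := h n
  have h1 : p - truncTotal n s ∈ idealOfVars σ k ^ n :=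
    (mem_pow_idealOfVars_iff' ..).2 fun d hd => by
      rw [coeff_sub, coeff_truncTotal _ hd, e d hd, sub_self]
  have h2 := add_mem hp (aeval_mem x h1)
  rwa [map_sub, sub_add_sub_cancel] at h2

theorem Crd.exists_tay (h : Crd k x) (a : O) : ∃ s : MvPowerSeries σ k, Tay x a s := by
  choose p hp using fun n => h.approx n a
  exact ⟨fun d => coeff d (p (d.degree + 1)), .of_approx fun n => ⟨p n, hp n, fun d hd =>
    h.coeff_eq (Ideal.pow_le_pow_right hd (hp n)) (hp _) (Nat.lt_succ_self _)⟩⟩

theorem Tay.coeff_eq (h : Crd k x) {a : O} {s : MvPowerSeries σ k} (hs : Tay x a s) {n : ℕ}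
    {p : MvPolynomial σ k} (hp : a - aeval x p ∈ Ideal.span (range x) ^ n) {d : σ →₀ ℕ}
    (hd : d.degree < n) : s.coeff d = coeff d p := by
  rw [← h.coeff_eq (hs n) hp hd, coeff_truncTotal _ hd]

theorem Tay.uniq (h : Crd k x) {a : O} {s t : MvPowerSeries σ k} (hs : Tay x a s)
    (ht : Tay x a t) : s = t := MvPowerSeries.ext fun d => by
  rw [hs.coeff_eq h (ht _) (Nat.lt_succ_self _), coeff_truncTotal _ (Nat.lt_succ_self _)]

theorem tay_poly (x : σ → O) (p : MvPolynomial σ k) : Tay x (aeval x p) (p : MvPowerSeries σ k) :=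
  .of_approx fun _ => ⟨p, by simp, fun _ _ => (coeff_coe ..).symm⟩

theorem Tay.add {a b : O} {s t : MvPowerSeries σ k} (hs : Tay x a s) (ht : Tay x b t) :
    Tay x (a + b) (s + t) := fun n => by
  convert add_mem (hs n) (ht n) using 1
  rw [map_add, map_add]; ring

theorem Tay.smul {a : O} {s : MvPowerSeries σ k} (hs : Tay x a s) (c : k) :
    Tay x (c • a) (c • s) := fun n => by
  rw [map_smul, map_smul, ← smul_sub]
  exact Submodule.smul_of_tower_mem _ c (hs n)

theorem Tay.mul {a b : O} {s t : MvPowerSeries σ k} (hs : Tay x a s) (ht : Tay x b t) :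
    Tay x (a * b) (s * t) := .of_approx fun n => ⟨truncTotal n s * truncTotal n t, by
  convert add_mem (Ideal.mul_mem_left _ a (ht n))
    (Ideal.mul_mem_right (aeval x (truncTotal n t)) _ (hs n)) using 1
  rw [map_mul]; ring, fun _ hd => MvPowerSeries.coeff_truncTotal_mul_truncTotal_eq_coeff_mul _ _ hd⟩

/-- the Taylor series -/
def Crd.tay (h : Crd k x) : O →ₐ[k] MvPowerSeries σ k :=
  have e := fun a => (h.exists_tay a).choose_spec
  AlgHom.mk' {
    toFun a := (h.exists_tay a).choose
    map_one' := (e _).uniq h (by simpa using tay_poly x (1 : MvPolynomial σ k))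
    map_mul' a b := (e _).uniq h ((e a).mul (e b))
    map_zero' := (e _).uniq h (by simpa using tay_poly x (0 : MvPolynomial σ k))
    map_add' a b := (e _).uniq h ((e a).add (e b)) }
    fun c a => (e _).uniq h ((e a).smul c)

theorem Crd.tay_spec (h : Crd k x) (a : O) : Tay x a (h.tay a) := (h.exists_tay a).choose_spec

theorem Crd.tay_eq (h : Crd k x) {a : O} {s : MvPowerSeries σ k} : h.tay a = s ↔ Tay x a s :=
  ⟨fun e => e ▸ h.tay_spec a, (h.tay_spec a).uniq h⟩

theorem Crd.tay_aeval (h : Crd k x) (p : MvPolynomial σ k) : h.tay (aeval x p) = p :=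
  h.tay_eq.2 (tay_poly x p)

theorem Crd.tay_x (h : Crd k x) (j : σ) : h.tay (x j) = MvPowerSeries.X j := by
  simpa using h.tay_aeval (X j)

theorem Crd.indep (h : Crd k x) : AlgebraicIndependent k x := fun p q e => by
  have := congrArg h.tay e
  rwa [h.tay_aeval, h.tay_aeval, coe_inj] at this

/-- the order of the Taylor series -/
theorem Tay.mem_pow_iff (h : Crd k x) {a : O} {s : MvPowerSeries σ k} (hs : Tay x a s) (n : ℕ) :
    a ∈ Ideal.span (range x) ^ n ↔ ∀ d : σ →₀ ℕ, d.degree < n → s.coeff d = 0 := by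
  refine ⟨fun ha d hd => ?_, fun e => ?_⟩
  · simpa using hs.coeff_eq h (p := 0) (by simpa using ha) hd
  · have h1 : truncTotal n s = 0 := MvPolynomial.ext _ _ fun d => by
      rw [MvPowerSeries.coeff_truncTotal_eq_ite]
      split_ifs with hd
      exacts [e d hd, rfl]
    simpa [h1] using hs n

/-- the Taylor series of a nonzero element is not zero -/
theorem Tay.ne_zero [IsNoetherianRing O] [IsDomain O] (h : Crd k x) {a : O}
    {s : MvPowerSeries σ k} (hs : Tay x a s) (ha : a ≠ 0) : s ≠ 0 := fun e => ha (by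
  rw [← Ideal.mem_bot, ← Ideal.iInf_pow_eq_bot_of_isDomain _ h.ne, Ideal.mem_iInf]
  exact fun n => (hs.mem_pow_iff h n).2 fun d _ => by simp [e])

/-- diagonal automorphisms -/
theorem Tay.map {a : O} {s : MvPowerSeries σ k} (hs : Tay x a s) (g : O →ₐ[k] O) (χ : σ → k)
    (hg : ∀ j, g (x j) = χ j • x j) : Tay x (g a) (rescale χ s) := fun n => by
  have h1 := Ideal.mem_map_of_mem g (hs n)
  rw [Ideal.map_pow, map_sub] at h1
  have h2 : g (aeval x (truncTotal n s)) = aeval x (truncTotal n (rescale χ s)) := by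
    simp only [truncTotal, MvPowerSeries.truncFinset_apply, map_sum, aeval_monomial,
      MvPowerSeries.coeff_rescale, map_mul, AlgHom.commutes, Finsupp.prod, map_prod, map_pow, hg,
      Algebra.smul_def, mul_pow, Finset.prod_mul_distrib]
    exact Finset.sum_congr rfl fun d _ => by ring
  rw [← h2]
  refine Ideal.pow_right_mono ?_ n h1
  rw [Ideal.map_span, Ideal.span_le]
  rintro _ ⟨_, ⟨j, rfl⟩, rfl⟩
  rw [hg]
  exact Submodule.smul_of_tower_mem _ _ (x_mem x j)

/-- the support of the Taylor series of a semi-invariant -/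
theorem Tay.supp (h : Crd k x) {a : O} {s : MvPowerSeries σ k} (hs : Tay x a s) (g : O →ₐ[k] O)
    (χ : σ → k) (hg : ∀ j, g (x j) = χ j • x j) {c : k} (hc : g a = c • a) {d : σ →₀ ℕ}
    (hd : s.coeff d ≠ 0) : (d.prod fun j m => χ j ^ m) = c := by
  have h1 := congrArg (MvPowerSeries.coeff d) ((hc ▸ hs.map g χ hg).uniq h (hs.smul c))
  rw [MvPowerSeries.coeff_rescale, map_smul, smul_eq_mul] at h1
  exact mul_right_cancel₀ hd h1

end Vale.Agent.P283R.Ty
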