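import Vale.Agent.P283R.Ty.B
import Vale.Agent.P283R.Tp.St

/-!
# P283R, block TAY: the local ring of a closed point, its places and its automorphisms
-/

open Set MvPolynomial
open Vale.Agent.P287D Vale.Agent.P287D.Pb Vale.Agent.P287D.Cb Vale.Agent.P297Z

noncomputable section

namespace Vale.Agent.P283R.Ty

variable {F : Type} [Field F] [Algebra ℂ F] {N : ℕ} {S : Subalgebra ℂ F} {p : Ideal S}

theorem ne_of_notMem {t : S} (h : t ∉ p) : (t : F) ≠ 0 := fun e =>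
  h ((show t = 0 from Subtype.ext e) ▸ zero_mem p)

/-- the local ring at `p` -/
def lo (S : Subalgebra ℂ F) (p : Ideal S) (hp : p.IsPrime) : Subalgebra ℂ F where
  carrier := Lo S p
  mul_mem' := by
    rintro _ _ ⟨s, t, h, rfl⟩ ⟨s', t', h', rfl⟩
    exact ⟨s * s', t * t', fun k => (hp.mem_or_mem k).elim h h', by
      push_cast; rw [div_mul_div_comm]⟩
  add_mem' := by
    rintro _ _ ⟨s, t, h, rfl⟩ ⟨s', t', h', rfl⟩
    exact ⟨s * t' + t * s', t * t', fun k => (hp.mem_or_mem k).elim h h', by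
      push_cast; rw [div_add_div _ _ (ne_of_notMem h) (ne_of_notMem h')]⟩
  algebraMap_mem' c := ⟨algebraMap ℂ S c, 1, (Ideal.ne_top_iff_one p).1 hp.ne_top, by simp⟩

theorem le_lo (hp : p.IsPrime) (s : S) : (s : F) ∈ lo S p hp :=
  ⟨s, 1, (Ideal.ne_top_iff_one p).1 hp.ne_top, by simp⟩

theorem inv_lo (hp : p.IsPrime) {t : S} (h : t ∉ p) : (t : F)⁻¹ ∈ lo S p hp :=
  ⟨1, t, h, by simp⟩

theorem noeth_lo (hp : p.IsPrime) (hS : S.FG) : IsNoetherianRing (lo S p hp) := by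
  let _ : Algebra S (lo S p hp) :=
    ((S.val.codRestrict (lo S p hp) (le_lo hp) : S →ₐ[ℂ] lo S p hp) : S →+* lo S p hp).toAlgebra
  have : IsLocalization p.primeCompl (lo S p hp) := (isLocalization_iff _ _).2
    ⟨fun y => .of_mul_eq_one ⟨_, inv_lo hp y.2⟩ 
      (Subtype.ext (mul_inv_cancel₀ (ne_of_notMem (t := y.1) y.2))),
      fun ⟨_, s, t, h, rfl⟩ => ⟨⟨s, t, h⟩, Subtype.ext (div_mul_cancel₀ _ (ne_of_notMem h))⟩,
      fun {u v} h => ⟨1, by
        rw [show u = v from Subtype.ext (congrArg (fun a : lo S p hp => (a : F)) h)]⟩⟩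
  exact IsLocalization.isNoetherianRing p.primeCompl _ (isNoetherianRing_of_fg hS)

/-- a derivation which preserves a subalgebra -/
def rstD (D : Derivation ℂ F F) (O : Subalgebra ℂ F) (h : ∀ a ∈ O, D a ∈ O) : Derivation ℂ O O :=
  Derivation.mk' {
    toFun a := ⟨D a, h a a.2⟩
    map_add' _ _ := Subtype.ext (map_add D _ _)
    map_smul' c _ := Subtype.ext (D.map_smul c _) } fun _ _ => Subtype.ext (D.leibniz _ _)

theorem lo_ring (hp : p.IsPrime) {P : Pl F} (h : Cen S p P) (a : lo S p hp) : (a : F) ∈ P.ring := by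
  obtain ⟨_, s, t, k, rfl⟩ := a
  have := mul_mem (h s).1 (inv_mem_of fun e => k ((h t).2.2 ((rd_eq_zero (h t).1).2 e)))
  rwa [← div_eq_mul_inv] at this

theorem inr_lo (hp : p.IsPrime) {σ : F ≃ₐ[ℂ] F} (h : Inr S p σ) (a : lo S p hp) :
    σ a ∈ lo S p hp := by
  obtain ⟨_, s, t, k, rfl⟩ := a
  obtain ⟨b, -, e⟩ := h s
  obtain ⟨c, hc, e'⟩ := h t
  refine ⟨b + s, c + t, fun m => k (by simpa using sub_mem m hc), ?_⟩
  push_cast
  rw [map_div₀, ← e, ← e', sub_add_cancel, sub_add_cancel]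

/-- the automorphism of the local ring -/
def act (hp : p.IsPrime) {σ : F ≃ₐ[ℂ] F} (h : Inr S p σ) : lo S p hp →ₐ[ℂ] lo S p hp :=
  ((σ : F →ₐ[ℂ] F).comp (lo S p hp).val).codRestrict _ (inr_lo hp h)

/-- an invariant function is a quotient of invariant regular functions -/
theorem fix_frac {A : Subgroup (F ≃ₐ[ℂ] F)} [Finite A] (hS : Aff N S) (hA : Stab A S) {h : F}
    (h0 : h ≠ 0) (hh : Fix A h) :
    ∃ a b : S, (a : F) ≠ 0 ∧ (b : F) ≠ 0 ∧ Fix A a ∧ Fix A b ∧ h = a / b := by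
  classical
  let _ := Fintype.ofFinite A
  obtain ⟨s, t, e⟩ := hS.fr h
  have t0 : (t : F) ≠ 0 := fun k => h0 (by rw [e, k, div_zero])
  have T0 : ∏ σ : A, σ.1 t ≠ 0 := Finset.prod_ne_zero_iff.2 fun σ _ => (map_ne_zero σ.1).2 t0
  have fT : Fix A (∏ σ : A, σ.1 t) := fun τ hτ => by
    rw [map_prod]
    exact Fintype.prod_equiv (Equiv.mulLeft (⟨τ, hτ⟩ : A)) _ _ fun _ => rfl
  have m : h * ∏ σ : A, σ.1 t ∈ S := by
    rw [← Finset.mul_prod_erase _ _ (Finset.mem_univ (1 : A)), ← mul_assoc, e]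
    refine mul_mem ?_ (prod_mem fun σ _ => hA _ σ.2 _ t.2)
    rw [show (1 : A).1 (t : F) = t from rfl, div_mul_cancel₀ _ t0]
    exact s.2
  exact ⟨⟨_, m⟩, ⟨_, prod_mem fun σ _ => hA _ σ.2 _ t.2⟩, mul_ne_zero h0 T0, T0,
    fun τ hτ => by rw [map_mul, hh τ hτ, fT τ hτ], fT, (mul_div_cancel_right₀ _ T0).symm⟩

/-- a power of a semi-invariant function is invariant -/
theorem eig_pow {A : Subgroup (F ≃ₐ[ℂ] F)} {h : F} (hh : Eig A h) : Fix A (h ^ Nat.card A) := by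
  intro σ hσ
  obtain ⟨c, hc⟩ := hh σ hσ
  have k : ∀ n : ℕ, (σ ^ n) h = c ^ n • h := fun n => by
    induction n with
    | zero => simp
    | succ n ih => rw [pow_succ', AlgEquiv.mul_apply, ih, map_smul, hc, smul_smul, pow_succ]
  have e : σ ^ Nat.card A = 1 := congrArg Subtype.val (pow_card_eq_one' (x := (⟨σ, hσ⟩ : A)))
  have k1 := k (Nat.card A)
  rw [e, AlgEquiv.one_apply] at k1
  by_cases h0 : h = 0
  · rw [map_pow, h0, map_zero]
  have k2 : c ^ Nat.card A = 1 := smul_left_injective ℂ h0 (by simpa using k1.symm)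
  rw [map_pow, hc, smul_pow, k2, one_smul]

variable {x : Fin N → F}

/-- the coordinates as members of the local ring -/
def xo (h : P283R.Ch S p x) (j : Fin N) : lo S p h.pri :=
  ⟨x j, let ⟨s, _, e⟩ := h.mem j; e ▸ le_lo h.pri s⟩

theorem mem_span (h : P283R.Ch S p x) {a : S} (ha : a ∈ p) :
    (⟨a, le_lo h.pri a⟩ : lo S p h.pri) ∈ Ideal.span (range (xo h)) := by
  obtain ⟨c, hc, e⟩ := h.gen a ha
  exact Ideal.mem_span_range_iff_exists_fun.2 ⟨fun j => ⟨c j, hc j⟩, Subtype.ext (by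
    push_cast; exact e.symm)⟩

theorem span_ne (h : P283R.Ch S p x) : Ideal.span (range (xo h)) ≠ ⊤ := fun e => by
  have k : ∀ a ∈ Ideal.span (range (xo h)), ∃ s ∈ p, ∃ t ∉ p, (a : F) = s / t := fun a ha => by
    induction ha using Submodule.span_induction with
    | mem v hv =>
      obtain ⟨j, rfl⟩ := hv
      obtain ⟨s, hs, e⟩ := h.mem j
      exact ⟨s, hs, 1, (Ideal.ne_top_iff_one p).1 h.pri.ne_top, by simp [e, xo]⟩
    | zero => exact ⟨0, zero_mem _, 1, (Ideal.ne_top_iff_one p).1 h.pri.ne_top, by simp⟩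
    | add u v _ _ hu hv =>
      obtain ⟨s, hs, t, ht, e⟩ := hu
      obtain ⟨s', hs', t', ht', e'⟩ := hv
      exact ⟨s * t' + t * s', add_mem (p.mul_mem_right _ hs) (p.mul_mem_left _ hs'), t * t',
        fun k => (h.pri.mem_or_mem k).elim ht ht', by
          push_cast; rw [e, e', div_add_div _ _ (ne_of_notMem ht) (ne_of_notMem ht')]⟩
    | smul c u _ hu =>
      obtain ⟨s, hs, t, ht, e⟩ := hu
      obtain ⟨_, s', t', ht', rfl⟩ := c
      exact ⟨s' * s, p.mul_mem_left _ hs, t' * t, fun k => (h.pri.mem_or_mem k).elim ht' ht, by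
        simp only [smul_eq_mul, MulMemClass.coe_mul, e, div_mul_div_comm]⟩
  obtain ⟨s, hs, t, ht, e'⟩ := k 1 (e ▸ Submodule.mem_top)
  have : t = s := Subtype.ext (by
    rw [eq_div_iff (ne_of_notMem ht)] at e'
    simpa using e')
  exact ht (this ▸ hs)

theorem res_lo (h : P283R.Ch S p x) (a : lo S p h.pri) :
    ∃ c : ℂ, a - algebraMap ℂ _ c ∈ Ideal.span (range (xo h)) := by
  obtain ⟨_, s, t, k, rfl⟩ := a
  obtain ⟨c, hc⟩ := h.res s
  obtain ⟨d, hd⟩ := h.res t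
  have d0 : d ≠ 0 := fun e => k (by simpa [e] using hd)
  have m : s - algebraMap ℂ S (c / d) * t ∈ p := by
    convert sub_mem hc (p.mul_mem_left (algebraMap ℂ S (c / d)) hd) using 1
    rw [mul_sub, ← map_mul, div_mul_cancel₀ _ d0]; ring
  refine ⟨c / d, ?_⟩
  convert Ideal.mul_mem_left _ ⟨_, inv_lo h.pri k⟩ (mem_span h m) using 1
  apply Subtype.ext
  have := ne_of_notMem k
  push_cast
  field_simp

theorem crd_of (hD : DER) (h : P283R.Ch S p x) : Crd ℂ (xo h) := by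
  obtain ⟨D, h1, h2, -⟩ := hD N 0 F S p x Fin.elim0 ⟨h.aff, h.pri, h.mem, h.gen, fun q hq => by
    rw [eq_C_of_isEmpty q, aeval_C] at hq
    by_contra q0
    refine h.pri.ne_top (Ideal.eq_top_of_isUnit_mem _ hq ((IsUnit.mk0 _ fun e => q0 ?_).map _))
    rw [eq_C_of_isEmpty q, e, map_zero], fun a => by
    obtain ⟨c, hc⟩ := h.res a
    exact ⟨Polynomial.X - Polynomial.C (C c), Polynomial.X_sub_C_ne_zero _, by simpa using hc⟩⟩
  refine .of_der (res_lo h) (span_ne h) (fun i => rstD (D i) _ (h2 i)) fun i j => Subtype.ext ?_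
  have := h1.dual i (Fin.castAdd 0 j)
  rw [Fin.append_left] at this
  refine this.trans ?_
  change (if i = j then _ else _) = _
  split_ifs <;> rfl

theorem cen_pos (h : P283R.Ch S p x) {P : Pl F} (hP : Cen S p P) (j : Fin N) :
    x j = 0 ∨ 0 < P.ord (x j) := by
  obtain ⟨s, hs, e⟩ := h.mem j
  exact mx_iff.1 (e ▸ (rd_eq_zero (hP s).1).1 ((hP s).2.1 hs))

theorem cen_of (h : P283R.Ch S p x) {P : Pl F} (h1 : ∀ a : lo S p h.pri, (a : F) ∈ P.ring)
    (h2 : ∀ j, 0 < P.ord (x j)) : Cen S p P := fun a => by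
  have m : (a : F) ∈ P.ring := h1 ⟨a, le_lo h.pri a⟩
  refine ⟨m, fun ha => ?_, fun e => by_contra fun ha => ?_⟩
  · rw [rd_eq_zero m, mx_iff, or_iff_not_imp_left]
    intro a0
    have := le_ord P ((lo S p h.pri).val : lo S p h.pri →+* F) h1 (x := xo h) (m := 1)
      (fun j => Or.inr (h2 j)) (n := 1) (a := ⟨a, le_lo h.pri a⟩)
      (by rw [pow_one]; exact mem_span h ha) a0
    exact Int.lt_of_add_one_le (by simpa using this)
  · have k := Pl.ord_unit P.toPlace m (h1 ⟨_, inv_lo h.pri ha⟩)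
    rcases mx_iff.1 ((rd_eq_zero m).1 e) with e | e
    exacts [ne_of_notMem ha e, e.ne' k]

end Vale.Agent.P283R.Ty
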