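import Vale.Agent.P283R.Ty.Sm
import Vale.Agent.P283R.Ty.A
import Vale.Agent.P287D.Defs

/-!
# P283R, block TAY: smooth local rings have Taylor coordinates
-/

open IsLocalRing Set

noncomputable section

namespace Vale.Agent.P283R.Ty.Sm

variable {k O : Type} [Field k] [CommRing O] [IsLocalRing O] [Algebra k O] {N : ℕ}

theorem mem_of_span {x : Fin N → O} (hs : Ideal.span (range x) = maximalIdeal O) (j : Fin N) :
    x j ∈ maximalIdeal O := hs ▸ Ideal.subset_span ⟨j, rfl⟩

/-- a basis of the cotangent space is a system of coordinates -/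
theorem crd [CharZero k] [Algebra.FormallySmooth k O] (h : Res k O) {x : Fin N → O}
    (hs : Ideal.span (range x) = maximalIdeal O) (hi : Ind k x) : Crd k x := by
  obtain ⟨D, hD⟩ := exists_der h (mem_of_span hs) hi
  exact Crd.of_der (hs ▸ h) (hs ▸ (maximalIdeal.isMaximal O).ne_top) D hD

omit [IsLocalRing O] in
theorem span_max [IsLocalRing O] {σ : Type} {x : σ → O} (h : Crd k x) :
    Ideal.span (range x) = maximalIdeal O := by
  refine le_antisymm (le_maximalIdeal h.ne) fun a ha => ?_
  obtain ⟨c, hc⟩ := h.res a
  by_cases h0 : c = 0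
  · simpa [h0] using hc
  · have h1 : algebraMap k O c ∈ maximalIdeal O := by
      simpa using Ideal.sub_mem _ ha (le_maximalIdeal h.ne hc)
    exact absurd ((IsUnit.mk0 _ h0).map _) h1

theorem res_of_crd {σ : Type} {x : σ → O} (h : Crd k x) : Res k O := fun a =>
  span_max h ▸ h.res a

theorem ind_of_crd {x : Fin N → O} (h : Crd k x) : Ind k x := by
  intro c hc
  have h1 := h.ind 2 (∑ j, MvPolynomial.monomial (Finsupp.single j 1) (c j)) (by
    rw [span_max h]
    simpa [map_sum, MvPolynomial.aeval_monomial, Algebra.smul_def] using hc)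
  funext j
  have h2 := (MvPolynomial.mem_pow_idealOfVars_iff' ..).1 h1 (Finsupp.single j 1) (by simp)
  simpa [MvPolynomial.coeff_sum, MvPolynomial.coeff_monomial,
    Finsupp.single_left_inj (one_ne_zero : (1 : ℕ) ≠ 0)] using h2

/-- `N` generators of a cotangent space of dimension at least `N` are independent -/
theorem ind_of_spn {x z : Fin N → O} (hx : ∀ j, x j ∈ maximalIdeal O) (hi : Ind k x)
    (hs : Spn k z) : Ind k z := by
  let W : Submodule k O := (maximalIdeal O ^ 2 : Ideal O).restrictScalars k
  have key : ∀ y : Fin N → O, Ind k y ↔ LinearIndependent k fun j => W.mkQ (y j) := by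
    intro y
    rw [Fintype.linearIndependent_iff]
    refine forall_congr' fun c => imp_congr ?_ funext_iff
    rw [show ∑ j, c j • W.mkQ (y j) = W.mkQ (∑ j, c j • y j) by simp [map_sum]]
    exact (Submodule.Quotient.mk_eq_zero W).symm
  rw [key] at hi ⊢
  rw [linearIndependent_iff_card_le_finrank_span]
  have h1 := linearIndependent_iff_card_le_finrank_span.1 hi
  refine h1.trans ?_
  have : Module.Finite k (Submodule.span k (range fun j => W.mkQ (z j))) :=
    Module.Finite.span_of_finite k (finite_range _)
  refine Submodule.finrank_mono (Submodule.span_le.2 ?_)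
  rintro _ ⟨j, rfl⟩
  obtain ⟨c, hc⟩ := hs _ (hx j)
  have e : W.mkQ (x j) = ∑ i, c i • W.mkQ (z i) := by
    rw [show ∑ i, c i • W.mkQ (z i) = W.mkQ (∑ i, c i • z i) by simp [map_sum]]
    exact (Submodule.Quotient.eq W).2 hc
  change W.mkQ (x j) ∈ Submodule.span k _
  rw [e]
  exact Submodule.sum_mem _ fun i _ => Submodule.smul_mem _ _ (Submodule.subset_span ⟨i, rfl⟩)

/-- coordinates exist -/
theorem exists_crd [CharZero k] [Algebra.FormallySmooth k O] [IsNoetherianRing O] (h : Res k O) :
    ∃ (N : ℕ) (x : Fin N → O), Crd k x := by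
  obtain ⟨N, x, hx, hi, hs⟩ := exists_basis h
  exact ⟨N, x, crd h (span_eq hx hs) hi⟩

/-- any `N` generators of the maximal ideal are coordinates -/
theorem crd_of_span [CharZero k] [Algebra.FormallySmooth k O] {x z : Fin N → O} (h : Crd k x)
    (hz : Ideal.span (range z) = maximalIdeal O) : Crd k z :=
  crd (res_of_crd h) hz (ind_of_spn (mem_of_span (span_max h)) (ind_of_crd h)
    (spn_of_span (res_of_crd h) hz))

/-- the partial derivatives -/
theorem der_of_crd [Algebra.FormallySmooth k O] {x : Fin N → O} (h : Crd k x) :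
    ∃ D : Fin N → Derivation k O O, ∀ i j, D i (x j) = if i = j then 1 else 0 :=
  exists_der (res_of_crd h) (mem_of_span (span_max h)) (ind_of_crd h)

/-- the Taylor series determines the function -/
theorem tay_inj [IsNoetherianRing O] {σ : Type} [Finite σ] {x : σ → O} (h : Crd k x) :
    Function.Injective h.tay := by
  rw [injective_iff_map_eq_zero]
  intro a ha
  refine krull fun n => ?_
  rw [← span_max h]
  exact ((h.tay_spec a).mem_pow_iff h n).2 fun d _ => by simp [ha]

theorem isDomain [IsNoetherianRing O] {σ : Type} [Finite σ] {x : σ → O} (h : Crd k x) :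
    IsDomain O :=
  haveI : IsDomain (MvPowerSeries σ k) := NoZeroDivisors.to_isDomain _
  (tay_inj h).isDomain h.tay.toRingHom

/-- the coordinates are a transcendence basis of the fraction field -/
theorem indep_frac {σ : Type} [Finite σ] {x : σ → O} (h : Crd k x) (F : Type) [Field F]
    [Algebra O F] [Algebra k F] [IsScalarTower k O F] [IsFractionRing O F] :
    AlgebraicIndependent k fun j => algebraMap O F (x j) :=
  h.indep.map' (f := IsScalarTower.toAlgHom k O F) (IsFractionRing.injective O F)

/-- the fraction field is a function field of dimension `N` -/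
theorem ff {O : Type} [CommRing O] [IsLocalRing O] [Algebra ℂ O] [Algebra.EssFiniteType ℂ O]
    {x : Fin N → O} (h : Crd ℂ x) (F : Type) [Field F] [Algebra O F] [Algebra ℂ F]
    [IsScalarTower ℂ O F] [IsFractionRing O F] : P287D.FF F N :=
  ⟨_, indep_frac h F, fin (res_of_crd h) (span_max h) F⟩

section pt

variable {S : Type} [CommRing S] [Algebra k S] [Algebra S O] [IsScalarTower k S O]
  (p : Ideal S) [p.IsPrime] [IsLocalization.AtPrime O p]

include p

omit [IsLocalRing O] in
theorem smooth_at [Algebra.FormallySmooth k S] : Algebra.FormallySmooth k O :=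
  have := Algebra.FormallySmooth.of_isLocalization (Rₘ := O) p.primeCompl
  Algebra.FormallySmooth.comp k S O

omit [IsLocalRing O] in
theorem ess_at [Algebra.EssFiniteType k S] : Algebra.EssFiniteType k O :=
  have := Algebra.EssFiniteType.of_isLocalization O p.primeCompl
  Algebra.EssFiniteType.comp k S O

omit [IsLocalRing O] in
theorem noeth_at [Algebra.FiniteType k S] : IsNoetherianRing O :=
  have := Algebra.FiniteType.isNoetherianRing k S
  IsLocalization.isNoetherianRing p.primeCompl O this

theorem res_at (hp : ∀ s : S, ∃ c : k, s - algebraMap k S c ∈ p) : Res k O := by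
  intro a
  obtain ⟨s, t, rfl⟩ := IsLocalization.exists_mk'_eq p.primeCompl a
  obtain ⟨c, hc⟩ := hp s
  obtain ⟨e, he⟩ := hp t
  have e0 : e ≠ 0 := fun h0 => t.2 (by simpa [h0] using he)
  refine ⟨c / e, ?_⟩
  have h1 : IsLocalization.mk' O s t - algebraMap k O (c / e) =
      IsLocalization.mk' O (s - algebraMap k S (c / e) * t) t := by
    rw [IsLocalization.eq_mk'_iff_mul_eq, sub_mul, IsLocalization.mk'_spec, map_sub, map_mul,
      ← IsScalarTower.algebraMap_apply]
  rw [h1, IsLocalization.AtPrime.mk'_mem_maximal_iff O p]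
  have h2 : s - algebraMap k S (c / e) * t =
      (s - algebraMap k S c) - algebraMap k S (c / e) * (t - algebraMap k S e) := by
    rw [mul_sub, ← map_mul, div_mul_cancel₀ _ e0]
    ring
  rw [h2]
  exact p.sub_mem hc (p.mul_mem_left _ he)

/-- coordinates at a rational point of a smooth variety -/
theorem exists_crd_at [CharZero k] [Algebra.Smooth k S]
    (hp : ∀ s : S, ∃ c : k, s - algebraMap k S c ∈ p) : ∃ (N : ℕ) (x : Fin N → O), Crd k x :=
  have := smooth_at (k := k) (O := O) p
  have := noeth_at (k := k) (O := O) p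
  exists_crd (res_at p hp)

end pt

/-- the kernel of a point -/
theorem ker_res {S : Type} [CommRing S] [Algebra k S] (ev : S →ₐ[k] k) (s : S) :
    ∃ c : k, s - algebraMap k S c ∈ RingHom.ker ev := ⟨ev s, by simp [RingHom.mem_ker]⟩

end Vale.Agent.P283R.Ty.Sm
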