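import Vale.Agent.P283R.Ty.B
import Vale.Agent.P283R.Co.St
import Vale.Agent.P283R.Tp.St

/-!
# P283R, block TAY: value groups of invariants, transfer of the hypothesis and of the conclusion
-/

set_option linter.unusedSectionVars false

open Set MvPolynomial
open MvPowerSeries (truncTotal)
open Vale.Agent.P297Z Vale.Agent.P287D Vale.Agent.P283R.Co

noncomputable section

namespace Vale.Agent.P283R.Ty.Vg

section lat

variable {G ι : Type} [Group G] [Fintype ι]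

theorem chi_ne (ψ : G →* ℂ) (g : G) : ψ g ≠ 0 := ((Group.isUnit g).map ψ).ne_zero

/-- the lattice of the invariant Laurent monomials -/
def lat (χ : ι → G →* ℂ) : AddSubgroup (ι → ℤ) where
  carrier := {m | ∀ g, ∏ j, χ j g ^ m j = 1}
  zero_mem' := fun g => by simp
  add_mem' := fun {a b} ha hb g => by
    simp only [Pi.add_apply, zpow_add₀ (chi_ne _ g), Finset.prod_mul_distrib, ha g, hb g, one_mul]
  neg_mem' := fun {a} ha g => by
    simp only [Pi.neg_apply, zpow_neg, Finset.prod_inv_distrib, ha g, inv_one]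

theorem mem_lat {χ : ι → G →* ℂ} {m : ι → ℤ} : m ∈ lat χ ↔ ∀ g, ∏ j, χ j g ^ m j = 1 := Iff.rfl

theorem prod_nat (χ : ι → G →* ℂ) (m : ι →₀ ℕ) (g : G) :
    ∏ j, χ j g ^ (m j : ℤ) = m.prod fun j n => χ j g ^ n := by
  rw [Finsupp.prod_fintype _ _ fun _ => pow_zero _]
  simp

theorem sub_mem_lat {χ : ι → G →* ℂ} {a b : ι → ℤ} :
    (fun j => a j - b j) ∈ lat χ ↔ ∀ g, ∏ j, χ j g ^ a j = ∏ j, χ j g ^ b j := by
  refine forall_congr' fun g => ?_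
  simp only [zpow_sub₀ (chi_ne _ g), Finset.prod_div_distrib]
  exact div_eq_one_iff_eq (Finset.prod_ne_zero_iff.2 fun j _ => zpow_ne_zero _ (chi_ne _ g))

theorem card_smul_mem_lat (χ : ι → G →* ℂ) (m : ι → ℤ) : Nat.card G • m ∈ lat χ := fun g =>
  Finset.prod_eq_one fun j _ => by
    rw [Pi.smul_apply, nsmul_eq_mul, zpow_mul, zpow_natCast, ← map_pow, pow_card_eq_one', map_one,
      one_zpow]

theorem fi [Finite G] {N : ℕ} (χ : Fin N → G →* ℂ) : Fi (lat χ) :=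
  ⟨Nat.card G, Nat.card_pos, fun j => by
    have := card_smul_mem_lat χ (Pi.single j 1)
    rwa [← Pi.single_smul, nsmul_eq_mul, mul_one] at this⟩

end lat

variable {K F O : Type} [Field K] [Algebra ℂ K] [Field F] [Algebra ℂ F] [CommRing O] [Algebra ℂ O]
  {N : ℕ} {ι : O →ₐ[ℂ] F} {x : Fin N → O} {A : Subgroup (F ≃ₐ[ℂ] F)}

/-- the character of a semi-invariant -/
theorem exists_chi {h : F} (h0 : h ≠ 0) (e : Eig A h) :
    ∃ χ : A →* ℂ, ∀ σ : A, σ.1 h = χ σ • h := by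
  choose c hc using fun σ : A => e σ.1 σ.2
  have u : ∀ a b : ℂ, a • h = b • h → a = b := fun a b e => smul_left_injective ℂ h0 e
  exact ⟨⟨⟨c, u _ _ (by rw [← hc]; simp)⟩, fun σ τ => u _ _ (by
    rw [← hc, Subgroup.coe_mul, AlgEquiv.mul_apply, hc τ, map_smul, hc σ, smul_smul, mul_comm])⟩,
    hc⟩

/-- an invariant function is a quotient of invariant elements of a stable ring -/
theorem inv_frac [Finite A] (fr : ∀ f : F, ∃ a b, ι b ≠ 0 ∧ f = ι a / ι b)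
    (hO : ∀ σ ∈ A, ∀ a, ∃ b, σ (ι a) = ι b) {f : F} (hf : Fix A f) :
    ∃ a b, ι b ≠ 0 ∧ Fix A (ι a) ∧ Fix A (ι b) ∧ f = ι a / ι b := by
  classical
  have := Fintype.ofFinite A
  obtain ⟨a, b, b0, rfl⟩ := fr f
  choose τ hτ using fun σ : A => hO σ.1 σ.2
  have e : ι (∏ g, τ g b) = ∏ g : A, g.1 (ι b) := by
    rw [map_prod]; exact Finset.prod_congr rfl fun g _ => (hτ g b).symm
  have n0 : ι (∏ g, τ g b) ≠ 0 := by
    rw [e]; exact Finset.prod_ne_zero_iff.2 fun g _ => (map_ne_zero _).2 b0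
  have ni : Fix A (ι (∏ g, τ g b)) := fun σ hσ => by
    rw [e, map_prod]
    exact Fintype.prod_equiv (Equiv.mulLeft (⟨σ, hσ⟩ : A)) _ _ fun g => rfl
  have e2 : ι (a * ∏ g ∈ Finset.univ.erase 1, τ g b) = ι a / ι b * ι (∏ g, τ g b) := by
    rw [← Finset.mul_prod_erase _ _ (Finset.mem_univ (1 : A)), map_mul, map_mul, ← hτ 1 b]
    simp only [OneMemClass.coe_one, AlgEquiv.one_apply]
    field_simp
  exact ⟨a * ∏ g ∈ Finset.univ.erase 1, τ g b, ∏ g, τ g b, n0,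
    fun g hg => by rw [e2, map_mul, hf g hg, ni g hg], ni, by rw [e2, mul_div_cancel_right₀ _ n0]⟩

/-- the restriction of an automorphism to the ring -/
theorem exists_res (inj : Function.Injective ι) {σ : F ≃ₐ[ℂ] F} (h : ∀ a, ∃ b, σ (ι a) = ι b) :
    ∃ g : O →ₐ[ℂ] O, ∀ a, σ (ι a) = ι (g a) := by
  choose g hg using h
  exact ⟨⟨⟨⟨⟨g, inj (by rw [← hg]; simp)⟩, fun a b => inj (by simp [← hg])⟩,
    inj (by rw [← hg]; simp), fun a b => inj (by simp [← hg])⟩,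
    fun c => inj (by simp [← hg])⟩, hg⟩

/-- the support of the Taylor series of a semi-invariant -/
theorem supp (h : Crd ℂ x) (inj : Function.Injective ι) (hO : ∀ σ ∈ A, ∀ a, ∃ b, σ (ι a) = ι b)
    {χ : Fin N → A →* ℂ} (hx : ∀ (σ : A) j, σ.1 (ι (x j)) = χ j σ • ι (x j)) {f : O} {σ : A}
    {c : ℂ} (hf : σ.1 (ι f) = c • ι f) {d : Fin N →₀ ℕ} (hd : (h.tay f).coeff d ≠ 0) :
    ∏ j, χ j σ ^ (d j : ℤ) = c := by
  obtain ⟨g, hg⟩ := exists_res inj (hO σ.1 σ.2)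
  rw [prod_nat]
  exact (h.tay_spec f).supp h g (fun j => χ j σ) (fun j => inj (by rw [← hg, hx, map_smul]))
    (inj (by rw [← hg, hf, map_smul])) hd

/-- the coset of the support -/
theorem cos (h : Crd ℂ x) (inj : Function.Injective ι) (hO : ∀ σ ∈ A, ∀ a, ∃ b, σ (ι a) = ι b)
    {χ : Fin N → A →* ℂ} (hx : ∀ (σ : A) j, σ.1 (ι (x j)) = χ j σ • ι (x j)) {f : O}
    (hf : Eig A (ι f)) (f0 : h.tay f ≠ 0) : ∃ b : Fin N → ℤ, Cos (lat χ) b (h.tay f) ∧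
      ∀ σ : A, σ.1 (ι f) = (∏ j, χ j σ ^ b j) • ι f := by
  obtain ⟨d, hd⟩ : ∃ d, (h.tay f).coeff d ≠ 0 := by
    by_contra hn
    exact f0 (MvPowerSeries.ext fun d => by simpa using not_exists.1 hn d)
  have key : ∀ σ : A, σ.1 (ι f) = (∏ j, χ j σ ^ (d j : ℤ)) • ι f := fun σ => by
    obtain ⟨c, hc⟩ := hf σ.1 σ.2
    rw [supp h inj hO hx hc hd, hc]
  exact ⟨fun j => d j, fun m hm => sub_mem_lat.2 fun σ => supp h inj hO hx (key σ) hm, key⟩

/-- monomials of the right character give invariant sections -/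
theorem fix {y : Fin N → F} {χ : Fin N → A →* ℂ} (hx : ∀ (σ : A) j, σ.1 (y j) = χ j σ • y j)
    {f : F} {b : Fin N → ℤ} (hf : ∀ σ : A, σ.1 f = (∏ j, χ j σ ^ b j) • f) {n r : ℕ}
    {c : Fin N → ℕ} (hc : (fun j => (c j : ℤ) - n + (r : ℕ) * b j) ∈ lat χ) :
    Fix A ((∏ j, y j ^ c j) * f ^ r / (∏ j, y j) ^ n) := fun σ hσ => by
  have h1 := hc ⟨σ, hσ⟩
  have h2 := hx ⟨σ, hσ⟩
  have h3 := hf ⟨σ, hσ⟩
  have n0 : ∀ j, χ j ⟨σ, hσ⟩ ≠ 0 := fun j => chi_ne _ _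
  simp only [zpow_add₀ (n0 _), zpow_sub₀ (n0 _), zpow_natCast, mul_comm (r : ℤ), zpow_mul,
    Finset.prod_mul_distrib, Finset.prod_div_distrib, Finset.prod_pow] at h1
  have p0 : (∏ j, χ j ⟨σ, hσ⟩) ^ n ≠ 0 :=
    pow_ne_zero _ (Finset.prod_ne_zero_iff.2 fun j _ => n0 j)
  simp only at h2 h3
  simp only [map_div₀, map_mul, map_pow, map_prod, h2, h3, smul_pow, Finset.prod_smul,
    smul_mul_smul_comm]
  rw [div_mul_eq_mul_div, div_eq_one_iff_eq p0] at h1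
  rw [h1, Algebra.smul_def, Algebra.smul_def,
    mul_div_mul_left _ _ ((map_ne_zero (algebraMap ℂ F)).2 p0)]

variable {φ : K →ₐ[ℂ] F} {z : Fin N → K} {P : Pl F} {Q : Pl K}

/-- the order of a function is the order of its truncations -/
theorem ord_trunc (h : Ch ι x φ z) (hP : ∀ a, ι a ∈ P.ring) (h0 : ∀ j, 0 < P.ord (ι (x j)))
    {a : O} (a0 : ι a ≠ 0) {k : ℕ} (hk : P.ord (ι a) < k) :
    φ (aeval z (truncTotal k (h.crd.tay a))) ≠ 0 ∧
      P.ord (φ (aeval z (truncTotal k (h.crd.tay a)))) = P.ord (ι a) := by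
  rw [← h.aeval_eq]
  exact ord_eq_of_sub P (ι : O →+* F) hP (m := 1) (fun j => Or.inr (h0 j))
    (by simpa using neg_mem (h.crd.tay_spec a k)) a0 (by simpa using hk)

theorem pos_up (h : Ch ι x φ z) (l : Lies (φ : K →+* F) P Q) (j : Fin N) :
    0 < P.ord (ι (x j)) ↔ 0 < Q.ord (z j) := by
  rw [← h.eq]; exact l.ord_pos_iff _

/-- a place which is centred at the point is unramified over the field of the coordinates -/
theorem e_one (h : Ch ι x φ z) (fr : ∀ f : F, ∃ a b, ι b ≠ 0 ∧ f = ι a / ι b)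
    (l : Lies (φ : K →+* F) P Q) (hP : ∀ a, ι a ∈ P.ring) (h0 : ∀ j, 0 < P.ord (ι (x j))) :
    P.ord (φ Q.t) = 1 := by
  have key : ∀ a, ι a ≠ 0 → P.ord (φ Q.t) ∣ P.ord (ι a) := fun a a0 => by
    rw [← (ord_trunc h hP h0 a0 (k := (P.ord (ι a)).toNat + 1) (by push_cast; omega)).2]
    exact ⟨_, l.ord _⟩
  obtain ⟨a, b, b0, e⟩ := fr P.t
  have a0 : ι a ≠ 0 := fun a0 => Pb.t_ne P (by rw [e, a0, zero_div])
  have h1 := dvd_sub (key a a0) (key b b0)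
  rw [← Pl.ord_div _ a0 b0, ← e, Pb.ord_t] at h1
  exact Int.eq_one_of_dvd_one (le_of_lt l.e_pos) h1

theorem ord_up (h : Ch ι x φ z) (fr : ∀ f : F, ∃ a b, ι b ≠ 0 ∧ f = ι a / ι b)
    (l : Lies (φ : K →+* F) P Q) (hP : ∀ a, ι a ∈ P.ring) (h0 : ∀ j, 0 < P.ord (ι (x j)))
    (r : K) : P.ord (φ r) = Q.ord r := by
  have := l.ord r
  rwa [RingHom.coe_coe, e_one h fr l hP h0, one_mul] at this

theorem kap_up (h : Ch ι x φ z) (fr : ∀ f : F, ∃ a b, ι b ≠ 0 ∧ f = ι a / ι b)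
    (l : Lies (φ : K →+* F) P Q) (hP : ∀ a, ι a ∈ P.ring) (h0 : ∀ j, 0 < P.ord (ι (x j))) :
    kap (fun j => ι (x j)) P = kap z Q := by
  have := h.hur l
  rw [e_one h fr l hP h0] at this
  simpa using this

/-- **the value group lemma** -/
theorem vg [Finite A] (h : Ch ι x φ z) (fr : ∀ f : F, ∃ a b, ι b ≠ 0 ∧ f = ι a / ι b)
    (hO : ∀ σ ∈ A, ∀ a, ∃ b, σ (ι a) = ι b) {χ : Fin N → A →* ℂ}
    (hx : ∀ (σ : A) j, σ.1 (ι (x j)) = χ j σ • ι (x j)) (l : Lies (φ : K →+* F) P Q)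
    (hP : ∀ a, ι a ∈ P.ring) (h0 : ∀ j, 0 < P.ord (ι (x j))) {e : ℕ}
    (he : ∀ p : MvPolynomial (Fin N) ℂ, p ≠ 0 → Cos (lat χ) 0 p → (e : ℤ) ∣ Q.ord (aeval z p)) :
    Dv A P e := fun f f0 hf => by
  have key : ∀ a, ι a ≠ 0 → Fix A (ι a) → (e : ℤ) ∣ P.ord (ι a) := fun a a0 ha => by
    obtain ⟨h1, h2⟩ := ord_trunc h hP h0 a0 (k := (P.ord (ι a)).toNat + 1) (by push_cast; omega)
    rw [← h2, ord_up h fr l hP h0]
    refine he _ (fun e => h1 (by rw [e, map_zero, map_zero])) fun m hm => sub_mem_lat.2 fun σ => ?_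
    rw [coeff_coe, MvPowerSeries.coeff_truncTotal_eq_ite] at hm
    rw [supp h.crd h.inj hO hx (c := 1) (by rw [one_smul]; exact ha _ σ.2)
      fun e => hm (by simp [e])]
    simp
  obtain ⟨a, b, b0, ha, hb, rfl⟩ := inv_frac fr hO hf
  have a0 : ι a ≠ 0 := fun e => f0 (by rw [e, zero_div])
  rw [Pl.ord_div _ a0 b0]
  exact dvd_sub (key a a0 ha) (key b b0 hb)

/-- a lower bound for the truncated ideal is a lower bound for the function -/
theorem low_le (h : Ch ι x φ z) (fr : ∀ f : F, ∃ a b, ι b ≠ 0 ∧ f = ι a / ι b)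
    (l : Lies (φ : K →+* F) P Q) (hP : ∀ a, ι a ∈ P.ring) {f : O} (f0 : ι f ≠ 0) {k : ℕ}
    {C : Finset (Fin N → ℕ)} {μ E B : ℝ} (w : Low z (truncTotal k (h.crd.tay f)) k C Q μ E B) :
    E ≤ P.ord (ι f) := by
  have h0 : ∀ j, 0 < P.ord (ι (x j)) := fun j =>
    (pos_up h l j).2 (by exact_mod_cast w.pos.trans_le (w.mu j))
  have hx : ∀ j, (ι : O →+* F) (x j) = 0 ∨ ⌈μ⌉ ≤ P.ord ((ι : O →+* F) (x j)) := fun j =>
    Or.inr (by
      rw [RingHom.coe_coe, ← h.eq, ord_up h fr l hP h0]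
      exact Int.ceil_le.2 (w.mu j))
  by_contra hn
  rw [not_le] at hn
  have h1 : P.ord (ι f) < k * ⌈μ⌉ := by
    have : (P.ord (ι f) : ℝ) < k * ⌈μ⌉ :=
      (hn.trans_le w.ek).trans_le (mul_le_mul_of_nonneg_left (Int.le_ceil μ) k.cast_nonneg)
    exact_mod_cast this
  obtain ⟨h2, h3⟩ := ord_eq_of_sub P (ι : O →+* F) hP hx
    (a := aeval x (truncTotal k (h.crd.tay f))) (n := k)
    (by simpa using neg_mem (h.crd.tay_spec f k)) f0 h1
  rw [RingHom.coe_coe] at h2 h3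
  rcases w.eg with e | e
  · exact h2 (by rw [e, map_zero, map_zero])
  · rw [h.aeval_eq, ord_up h fr l hP h0] at h3
    rw [h3] at e
    exact hn.not_ge e

/-- **transfer of the hypothesis (H)** -/
theorem hy [Finite A] {φ : K0 N →ₐ[ℂ] F} (h : Ch ι x φ (z0 N))
    (fr : ∀ f : F, ∃ a b, ι b ≠ 0 ∧ f = ι a / ι b) (hO : ∀ σ ∈ A, ∀ a, ∃ b, σ (ι a) = ι b)
    {χ : Fin N → A →* ℂ} (hx : ∀ (σ : A) j, σ.1 (ι (x j)) = χ j σ • ι (x j)) {f : O}
    (f0 : ι f ≠ 0) {q : ℕ} {ε : ℝ} (hε : 0 ≤ ε)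
    (H : ∀ P : Pl F, (∀ a, ι a ∈ P.ring) → (∀ j, 0 < P.ord (ι (x j))) → ∀ e : ℕ, 0 < e →
      Dv A P e → ε * e ≤ ld (fun j => ι (x j)) q (ι f) P) :
    Hy q ε (lat χ) (h.crd.tay f) := by
  intro Q r e k μ E hr he w hZ _
  have hQ : ∀ j, 0 < Q.ord (z0 N j) := fun j => by exact_mod_cast w.pos.trans_le (w.mu j)
  obtain ⟨P, l, hP⟩ := h.up hQ
  have h0 : ∀ j, 0 < P.ord (ι (x j)) := fun j => (pos_up h l j).2 (hQ j)
  have g0 : 0 < r.gcd e := Nat.gcd_pos_of_pos_left e hr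
  have h5 : (r.gcd e : ℝ) ≤ e := by exact_mod_cast Nat.gcd_le_right r he
  obtain ⟨r', e', co, er, ee⟩ := Nat.exists_coprime r e
  generalize r.gcd e = g at g0 h5 er ee
  have r0 : 0 < r' := Nat.pos_of_ne_zero fun e => hr.ne' (by rw [er, e, zero_mul])
  have h1 := H P hP h0 r' r0 (vg h fr hO hx l hP h0 fun p p0 hp => by
    have h2 := hZ 0 p p0 hp
    simp only [Pi.zero_apply, zero_mul, Finset.sum_const_zero, sub_zero] at h2
    rw [er, ee, Nat.cast_mul, Nat.cast_mul, mul_right_comm,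
      mul_dvd_mul_iff_right (by exact_mod_cast g0.ne')] at h2
    exact (Nat.isCoprime_iff_coprime.2 co).dvd_of_dvd_mul_left h2)
  rw [ld, kap_up h fr l hP h0] at h1
  have h3 : E / q ≤ P.ord (ι f) / q :=
    div_le_div_of_nonneg_right (low_le h fr l hP f0 w) q.cast_nonneg
  have h4 : ε * r' ≤ Co.A0 (z0 N) Q - E / q := by rw [Co.A0]; linarith
  have h6 : (r : ℝ) = r' * g := by exact_mod_cast er
  have h7 : 0 ≤ ε * r' := mul_nonneg hε r'.cast_nonneg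
  calc ε * r = g * (ε * r') := by rw [h6]; ring
    _ ≤ e * (ε * r') := mul_le_mul_of_nonneg_right h5 h7
    _ ≤ _ := mul_le_mul_of_nonneg_left h4 e.cast_nonneg

/-- **transfer of the conclusion** -/
theorem back (h : Ch ι x φ z) (fr : ∀ f : F, ∃ a b, ι b ≠ 0 ∧ f = ι a / ι b) {f : O}
    (f0 : ι f ≠ 0) {q n k : ℕ} {C : Finset (Fin N → ℕ)}
    (H : ∀ k', k ≤ k' → truncTotal k' (h.crd.tay f) ≠ 0 → ∀ Q : Pl K, (∀ j, 0 < Q.ord (z j)) →
      ∃ c ∈ C, (Q.ord (aeval z (truncTotal k' (h.crd.tay f))) : ℝ) / q +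
        (∑ j, (c j : ℝ) * Q.ord (z j)) / n < Co.A0 z Q)
    (hP : ∀ a, ι a ∈ P.ring) (h0 : ∀ j, 0 < P.ord (ι (x j))) :
    ∃ c ∈ C, (∑ j, (c j : ℝ) * P.ord (ι (x j))) / n < ld (fun j => ι (x j)) q (ι f) P := by
  obtain ⟨Q, l⟩ := h.down P
  obtain ⟨h1, h2⟩ := ord_trunc h hP h0 f0 (k := max k ((P.ord (ι f)).toNat + 1))
    (by push_cast; omega)
  obtain ⟨c, hc, h3⟩ := H _ (le_max_left _ _) (fun e => h1 (by rw [e, map_zero, map_zero])) Q
    fun j => (pos_up h l j).1 (h0 j)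
  refine ⟨c, hc, ?_⟩
  rw [ld, kap_up h fr l hP h0, ← h2, ord_up h fr l hP h0]
  simp only [← h.eq, ord_up h fr l hP h0]
  rw [Co.A0] at h3
  linarith

end Vale.Agent.P283R.Ty.Vg
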